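import Vale.Agent.Lib.P361H29.BoxBound

set_option linter.unusedSimpArgs false

open Matrix Filter Topology

namespace Vale.Agent.Lib.P361H29

/-- bound for the right derivative -/
theorem deriv_bound (n J : ℕ) (hn : 1 ≤ n) (β τ : ℝ) (hβ : 0 < β)
    (hτ0 : 0 < τ) (hτ1 : τ < 1) (p : ℝ → ℝ) (m : ℝ)
    (hp : ∀ h, Tendsto (fun N : ℕ => graphPressure n (boxAdj N) β h) atTop (𝓝 (p h)))
    (hm : HasDerivWithinAt p m (Set.Ioi 0) 0) :
    m ≤ limBound n J β 0 τ := by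
  rw [hasDerivWithinAt_iff_tendsto_slope' (by simp)] at hm
  have hB : Tendsto (fun h => limBound n J β h τ) (𝓝[>] 0) (𝓝 (limBound n J β 0 τ)) := by
    have hc : Continuous (fun h => limBound n J β h τ) := by
      unfold limBound
      fun_prop
    exact (hc.tendsto 0).mono_left nhdsWithin_le_nhds
  refine le_of_tendsto_of_tendsto hm hB ?_
  filter_upwards [self_mem_nhdsWithin] with h hh
  rw [Set.mem_Ioi] at hh
  have := pressure_limit_bound n J hn β h τ hβ hh hτ0 hτ1 (p h) (p 0) (hp h) (hp 0)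
  rw [slope_def_field, sub_zero, div_le_iff₀ hh]
  linarith

/-- the Bloch constant -/
noncomputable def blochConst (n : ℕ) : ℝ :=
  (riemannZeta (3 / 2)).re / (8 * Real.pi ^ (3 / 2 : ℝ) * ((n : ℝ) / 2) ^ (3 / 2 : ℝ))

lemma zeta_tendsto : Tendsto (fun J : ℕ => ∑ j ∈ Finset.range J, 1 / ((j : ℝ) + 1) ^ (3 / 2 : ℝ))
    atTop (𝓝 (riemannZeta (3 / 2)).re) := by
  have hs : (1 : ℝ) < (3 / 2 : ℂ).re := by norm_num
  have h1 := zeta_eq_tsum_one_div_nat_add_one_cpow hs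
  have h2 : ∀ j : ℕ, (1 : ℂ) / ((j : ℂ) + 1) ^ (3 / 2 : ℂ)
      = ((1 / ((j : ℝ) + 1) ^ (3 / 2 : ℝ) : ℝ) : ℂ) := by
    intro j
    rw [Complex.ofReal_div, Complex.ofReal_cpow (by positivity)]
    push_cast
    rfl
  simp_rw [h2] at h1
  rw [← Complex.ofReal_tsum] at h1
  rw [h1, Complex.ofReal_re]
  apply Summable.tendsto_sum_tsum_nat
  have h3 := (Real.summable_one_div_nat_rpow (p := 3 / 2)).2 (by norm_num)
  have h4 := (summable_nat_add_iff 1).2 h3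
  simpa using h4

/-- scaling of `Gf` -/
lemma tendsto_Gf_cube (a : ℝ) (ha : 0 < a) :
    Tendsto (fun β : ℝ => β ^ (3 / 2 : ℝ) * Gf (a * β) ^ 3) atTop
      (𝓝 (1 / (8 * Real.pi ^ (3 / 2 : ℝ)) / a ^ (3 / 2 : ℝ))) := by
  have h1 : Tendsto (fun β : ℝ => a * β) atTop atTop := Tendsto.const_mul_atTop ha tendsto_id
  have h2 := ((tendsto_sqrt_mul_Gf.comp h1).pow 3).div_const (a ^ (3 / 2 : ℝ))
  have hpi : (1 / (2 * Real.sqrt Real.pi)) ^ 3 = 1 / (8 * Real.pi ^ (3 / 2 : ℝ)) := by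
    rw [show (3 / 2 : ℝ) = 1 / 2 * (3 : ℕ) by norm_num, Real.rpow_mul_natCast Real.pi_pos.le,
      ← Real.sqrt_eq_rpow]
    field_simp
    norm_num
  rw [hpi] at h2
  refine Tendsto.congr' ?_ h2
  filter_upwards [eventually_gt_atTop 0] with β hβ
  simp only [Function.comp]
  rw [mul_pow]
  have h3 : Real.sqrt (a * β) ^ 3 = a ^ (3 / 2 : ℝ) * β ^ (3 / 2 : ℝ) := by
    rw [← Real.mul_rpow ha.le hβ.le, show (3 / 2 : ℝ) = 1 / 2 * (3 : ℕ) by norm_num,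
      Real.rpow_mul_natCast (by positivity), ← Real.sqrt_eq_rpow]
  rw [h3]
  have h4 : a ^ (3 / 2 : ℝ) ≠ 0 := (Real.rpow_pos_of_pos ha _).ne'
  field_simp

/-- lower asymptotic bound -/
theorem asymp (n : ℕ) (hn : 1 ≤ n) (m : ℝ → ℝ)
    (hm : ∀ β, 0 < β → ∀ J : ℕ, ∀ τ, 0 < τ → τ < 1 → m β ≤ limBound n J β 0 τ)
    (c : ℝ) (hc : c < blochConst n) :
    ∀ᶠ β : ℝ in atTop, c < β ^ (3 / 2 : ℝ) * ((n : ℝ) / 2 - m β) := by
  have hn0 : (0 : ℝ) < (n : ℝ) / 2 := by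
    have : (1 : ℝ) ≤ n := by exact_mod_cast hn
    linarith
  -- choose J
  have h1 : Tendsto (fun J : ℕ => (∑ j ∈ Finset.range J, 1 / ((j : ℝ) + 1) ^ (3 / 2 : ℝ)) /
      (8 * Real.pi ^ (3 / 2 : ℝ) * ((n : ℝ) / 2) ^ (3 / 2 : ℝ))) atTop (𝓝 (blochConst n)) :=
    zeta_tendsto.div_const _
  obtain ⟨J, hJ⟩ := (h1.eventually (lt_mem_nhds hc)).exists
  -- choose τ
  have h2 : Tendsto (fun τ : ℝ => τ * ((∑ j ∈ Finset.range J, 1 / ((j : ℝ) + 1) ^ (3 / 2 : ℝ)) /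
      (8 * Real.pi ^ (3 / 2 : ℝ) * (((n : ℝ) + 1 - τ) / (2 * τ)) ^ (3 / 2 : ℝ)))) (𝓝[<] 1)
      (𝓝 (1 * ((∑ j ∈ Finset.range J, 1 / ((j : ℝ) + 1) ^ (3 / 2 : ℝ)) /
      (8 * Real.pi ^ (3 / 2 : ℝ) * (((n : ℝ) + 1 - 1) / (2 * 1)) ^ (3 / 2 : ℝ))))) := by
    have hid : Tendsto (fun τ : ℝ => τ) (𝓝[<] (1 : ℝ)) (𝓝 1) :=
      tendsto_id.mono_left nhdsWithin_le_nhds
    refine hid.mul (Tendsto.div tendsto_const_nhds (Tendsto.mul tendsto_const_nhds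
      (Tendsto.rpow_const ((hid.const_sub ((n : ℝ) + 1)).div (hid.const_mul 2) (by norm_num)) ?_)) ?_)
    · left
      have : ((n : ℝ) + 1 - 1) / (2 * 1) = (n : ℝ) / 2 := by ring
      rw [this]; exact hn0.ne'
    · have : ((n : ℝ) + 1 - 1) / (2 * 1) = (n : ℝ) / 2 := by ring
      rw [this]; positivity
  have h3 : c < 1 * ((∑ j ∈ Finset.range J, 1 / ((j : ℝ) + 1) ^ (3 / 2 : ℝ)) /
      (8 * Real.pi ^ (3 / 2 : ℝ) * (((n : ℝ) + 1 - 1) / (2 * 1)) ^ (3 / 2 : ℝ))) := by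
    have : ((n : ℝ) + 1 - 1) / (2 * 1) = (n : ℝ) / 2 := by ring
    rw [this, one_mul]; exact hJ
  have h4 : ∀ᶠ τ : ℝ in 𝓝[<] 1, 0 < τ ∧ τ < 1 := by
    have : Set.Ioo (0 : ℝ) 1 ∈ 𝓝[<] (1 : ℝ) := Ioo_mem_nhdsLT (by norm_num)
    filter_upwards [this] with τ hτ using hτ
  obtain ⟨τ, hτc, hτ0, hτ1⟩ := ((h2.eventually (lt_mem_nhds h3)).and h4).exists
  set lam := ((n : ℝ) + 1 - τ) / (2 * τ) with hlam
  have hlam0 : 0 < lam := by
    have : (1 : ℝ) ≤ n := by exact_mod_cast hn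
    rw [hlam]; apply div_pos <;> linarith
  -- limit in β
  have h5 : Tendsto (fun β : ℝ => τ * ∑ j ∈ Finset.range J,
      β ^ (3 / 2 : ℝ) * Gf ((((j : ℝ) + 1) * lam) * β) ^ 3) atTop
      (𝓝 (τ * ∑ j ∈ Finset.range J, (1 / (8 * Real.pi ^ (3 / 2 : ℝ)) /
        ((((j : ℝ) + 1) * lam)) ^ (3 / 2 : ℝ)))) := by
    apply Tendsto.const_mul
    apply tendsto_finsetSum
    intro j _
    exact tendsto_Gf_cube _ (by positivity)
  have h6 : c < τ * ∑ j ∈ Finset.range J, (1 / (8 * Real.pi ^ (3 / 2 : ℝ)) /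
        ((((j : ℝ) + 1) * lam)) ^ (3 / 2 : ℝ)) := by
    refine lt_of_lt_of_eq hτc ?_
    congr 1
    rw [Finset.sum_div]
    refine Finset.sum_congr rfl fun j _ => ?_
    rw [Real.mul_rpow (by positivity) hlam0.le]
    have hp1 : Real.pi ^ (3 / 2 : ℝ) ≠ 0 := (Real.rpow_pos_of_pos Real.pi_pos _).ne'
    have hp2 : lam ^ (3 / 2 : ℝ) ≠ 0 := (Real.rpow_pos_of_pos hlam0 _).ne'
    have hp3 : ((j : ℝ) + 1) ^ (3 / 2 : ℝ) ≠ 0 :=
      (Real.rpow_pos_of_pos (by positivity) _).ne'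
    field_simp
  have h7 := h5.eventually (lt_mem_nhds h6)
  have h8 : Tendsto (fun β : ℝ => β ^ (3 / 2 : ℝ) * ((1 - τ) * ((n : ℝ) / 2))) atTop atTop :=
    Tendsto.atTop_mul_const (mul_pos (by linarith) hn0)
      (tendsto_rpow_atTop (by norm_num : (0 : ℝ) < 3 / 2))
  filter_upwards [h7, h8.eventually (eventually_gt_atTop c), eventually_gt_atTop 0] with β hb1 hb2 hβ
  have hmβ := hm β hβ J τ hτ0 hτ1
  have hβp : 0 < β ^ (3 / 2 : ℝ) := Real.rpow_pos_of_pos hβ _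
  have hmono : β ^ (3 / 2 : ℝ) * ((n : ℝ) / 2 - limBound n J β 0 τ)
      ≤ β ^ (3 / 2 : ℝ) * ((n : ℝ) / 2 - m β) :=
    mul_le_mul_of_nonneg_left (by linarith) hβp.le
  refine lt_of_lt_of_le ?_ hmono
  unfold limBound
  rcases max_cases (τ * ((n : ℝ) / 2)) ((n : ℝ) / 2 -
      τ * ∑ j ∈ Finset.range J, Real.exp (-((j : ℝ) + 1) * (β * 0)) *
        (Gf (((j : ℝ) + 1) * (β * (((n : ℝ) + 1 - τ) / (2 * τ))))) ^ 3) with ⟨he, _⟩ | ⟨he, _⟩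
  · rw [he]
    calc c < β ^ (3 / 2 : ℝ) * ((1 - τ) * ((n : ℝ) / 2)) := hb2
      _ = _ := by ring
  · rw [he]
    refine lt_of_lt_of_eq hb1 ?_
    rw [sub_sub_cancel, mul_left_comm]
    congr 1
    rw [Finset.mul_sum]
    refine Finset.sum_congr rfl fun j _ => ?_
    rw [mul_zero, mul_zero, Real.exp_zero, one_mul, ← hlam]
    congr 3
    ring

end Vale.Agent.Lib.P361H29
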