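import Mathlib

open Filter Topology

namespace Vale.Agent.Lib.P361H29

/-- `(1/π) ∫₀^π exp(-t x²) dx` -/
noncomputable def Gf (t : ℝ) : ℝ := (1 / Real.pi) * ∫ x in (0 : ℝ)..Real.pi, Real.exp (-t * x ^ 2)

lemma Gf_nonneg (t : ℝ) : 0 ≤ Gf t := by
  unfold Gf
  apply mul_nonneg (by positivity)
  apply intervalIntegral.integral_nonneg Real.pi_pos.le
  intro x _
  exact (Real.exp_pos _).le

lemma riemann_lower (N : ℕ) (t : ℝ) (ht : 0 ≤ t) :
    ((2 * N + 1 : ℕ) : ℝ) / 2 * Gf t ≤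
      ∑ j ∈ Finset.range (N + 1), Real.exp (-t * (2 * Real.pi / ((2 * N + 1 : ℕ) : ℝ) * (j : ℝ)) ^ 2) := by
  set L : ℝ := ((2 * N + 1 : ℕ) : ℝ) with hL
  have hL0 : 0 < L := by rw [hL]; positivity
  set f : ℝ → ℝ := fun x => Real.exp (-t * (2 * Real.pi / L * x) ^ 2) with hf
  have hanti : AntitoneOn f (Set.Icc (0 : ℝ) (0 + ((N + 1 : ℕ) : ℝ))) := by
    intro x hx y hy hxy
    simp only [hf]
    apply Real.exp_le_exp.2
    have h1 : 0 ≤ 2 * Real.pi / L * x := mul_nonneg (by positivity) hx.1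
    have h2 : 2 * Real.pi / L * x ≤ 2 * Real.pi / L * y := mul_le_mul_of_nonneg_left hxy (by positivity)
    have h3 : (2 * Real.pi / L * x) ^ 2 ≤ (2 * Real.pi / L * y) ^ 2 := by
      apply pow_le_pow_left₀ h1 h2
    nlinarith
  have h1 := hanti.integral_le_sum
  simp only [zero_add] at h1
  have h2 : ∫ x in (0 : ℝ)..((N + 1 : ℕ) : ℝ), f x = (L / (2 * Real.pi)) *
      ∫ x in (0 : ℝ)..(2 * Real.pi / L * ((N + 1 : ℕ) : ℝ)), Real.exp (-t * x ^ 2) := by
    have := intervalIntegral.integral_comp_mul_left (a := 0) (b := ((N + 1 : ℕ) : ℝ))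
      (fun x => Real.exp (-t * x ^ 2)) (c := 2 * Real.pi / L) (by positivity)
    simp only [hf]
    rw [this, smul_eq_mul, mul_zero]
    congr 1
    field_simp
  have hle : Real.pi ≤ 2 * Real.pi / L * ((N + 1 : ℕ) : ℝ) := by
    rw [div_mul_eq_mul_div, le_div_iff₀ hL0, hL]
    push_cast
    nlinarith [Real.pi_pos]
  have h3 : ∫ x in (0 : ℝ)..Real.pi, Real.exp (-t * x ^ 2) ≤
      ∫ x in (0 : ℝ)..(2 * Real.pi / L * ((N + 1 : ℕ) : ℝ)), Real.exp (-t * x ^ 2) := by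
    apply intervalIntegral.integral_mono_interval (le_refl _) Real.pi_pos.le hle
    · exact Filter.Eventually.of_forall fun x => (Real.exp_pos _).le
    · exact (by fun_prop : Continuous fun x : ℝ => Real.exp (-t * x ^ 2)).intervalIntegrable _ _
  calc L / 2 * Gf t = (L / (2 * Real.pi)) * ∫ x in (0 : ℝ)..Real.pi, Real.exp (-t * x ^ 2) := by
        unfold Gf; ring
    _ ≤ (L / (2 * Real.pi)) *
      ∫ x in (0 : ℝ)..(2 * Real.pi / L * ((N + 1 : ℕ) : ℝ)), Real.exp (-t * x ^ 2) :=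
        mul_le_mul_of_nonneg_left h3 (by positivity)
    _ = ∫ x in (0 : ℝ)..((N + 1 : ℕ) : ℝ), f x := h2.symm
    _ ≤ _ := h1

lemma one_sub_cos_le (x : ℝ) : 1 - Real.cos x ≤ x ^ 2 / 2 := by
  have := Real.one_sub_sq_div_two_le_cos (x := x)
  linarith

/-- lower bound for the one-dimensional momentum sum -/
lemma one_dim_lower (N : ℕ) (t : ℝ) (ht : 0 ≤ t) :
    ((2 * N + 1 : ℕ) : ℝ) * Gf t - 1 ≤
      ∑ a : Fin (2 * N + 1), Real.exp (-(2 * t) *
        (1 - Real.cos (2 * Real.pi * ((a : ℕ) : ℝ) / (2 * N + 1)))) := by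
  set L : ℝ := ((2 * N + 1 : ℕ) : ℝ) with hL
  have hL0 : 0 < L := by rw [hL]; positivity
  have hL1 : (2 * (N : ℝ) + 1) = L := by rw [hL]; push_cast; ring
  set g : ℕ → ℝ := fun j => Real.exp (-t * (2 * Real.pi / L * (j : ℝ)) ^ 2) with hg
  have hfg : ∀ a : ℕ, g a ≤ Real.exp (-(2 * t) * (1 - Real.cos (2 * Real.pi * (a : ℝ) / L))) := by
    intro a
    simp only [hg]
    apply Real.exp_le_exp.2
    have h1 := one_sub_cos_le (2 * Real.pi * (a : ℝ) / L)
    have h2 : 2 * Real.pi / L * (a : ℝ) = 2 * Real.pi * (a : ℝ) / L := by ring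
    rw [h2]
    nlinarith
  rw [Fin.sum_univ_eq_sum_range (fun a => Real.exp (-(2 * t) *
        (1 - Real.cos (2 * Real.pi * (a : ℝ) / (2 * N + 1)))))]
  rw [hL1, show 2 * N + 1 = (N + 1) + N by ring, Finset.sum_range_add]
  have h1 : ∑ j ∈ Finset.range (N + 1), g j ≤ ∑ x ∈ Finset.range (N + 1),
      Real.exp (-(2 * t) * (1 - Real.cos (2 * Real.pi * (x : ℝ) / L))) :=
    Finset.sum_le_sum fun a _ => hfg a
  have h2 : ∑ j ∈ Finset.range N, g (j + 1) ≤ ∑ x ∈ Finset.range N,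
      Real.exp (-(2 * t) * (1 - Real.cos (2 * Real.pi * (((N + 1 + x : ℕ)) : ℝ) / L))) := by
    rw [← Finset.sum_range_reflect]
    refine Finset.sum_le_sum fun a ha => ?_
    rw [Finset.mem_range] at ha
    have h3 := hfg (N - 1 - a + 1)
    have h4 : ((N - 1 - a + 1 : ℕ) : ℝ) = L - ((N + 1 + a : ℕ) : ℝ) := by
      have : N - 1 - a + 1 + (N + 1 + a) = 2 * N + 1 := by omega
      rw [hL, ← this]; push_cast; ring
    have h5 : Real.cos (2 * Real.pi * ((N - 1 - a + 1 : ℕ) : ℝ) / L)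
        = Real.cos (2 * Real.pi * (((N + 1 + a : ℕ)) : ℝ) / L) := by
      rw [h4]
      rw [show 2 * Real.pi * (L - ((N + 1 + a : ℕ) : ℝ)) / L
        = 2 * Real.pi - 2 * Real.pi * ((N + 1 + a : ℕ) : ℝ) / L by field_simp]
      rw [Real.cos_two_pi_sub]
    rw [h5] at h3
    exact h3
  have h3 := riemann_lower N t ht
  rw [← hL] at h3
  have h4 : ∑ j ∈ Finset.range (N + 1), g j = ∑ j ∈ Finset.range N, g (j + 1) + 1 := by
    rw [Finset.sum_range_succ']
    simp [hg]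
  have h5 : L / 2 * Gf t ≤ ∑ j ∈ Finset.range (N + 1), g j := h3
  linarith

lemma geom_lower (x : ℝ) (hx : 0 < x) (J : ℕ) :
    ∑ j ∈ Finset.range J, Real.exp (-((j : ℝ) + 1) * x) ≤ 1 / (Real.exp x - 1) := by
  have h1 : 0 < Real.exp x - 1 := by
    have := Real.add_one_lt_exp (ne_of_gt hx)
    linarith
  rw [le_div_iff₀ h1]
  have h2 : ∀ J : ℕ, (∑ j ∈ Finset.range J, Real.exp (-((j : ℝ) + 1) * x)) * (Real.exp x - 1)
      = 1 - Real.exp (-(J : ℝ) * x) := by
    intro J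
    induction J with
    | zero => simp
    | succ m ih =>
      rw [Finset.sum_range_succ, add_mul, ih, mul_sub, ← Real.exp_add]
      rw [show -((m : ℝ) + 1) * x + x = -(m : ℝ) * x by ring]
      push_cast
      ring
  rw [h2]
  linarith [Real.exp_pos (-(J : ℝ) * x)]

/-- three-dimensional momentum sum -/
lemma three_dim_sum (N : ℕ) (t : ℝ) :
    ∑ k : Fin 3 → Fin (2 * N + 1), Real.exp (-(2 * t) *
      ∑ i, (1 - Real.cos (2 * Real.pi * ((k i : ℕ) : ℝ) / (2 * N + 1))))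
    = (∑ a : Fin (2 * N + 1), Real.exp (-(2 * t) *
        (1 - Real.cos (2 * Real.pi * ((a : ℕ) : ℝ) / (2 * N + 1))))) ^ 3 := by
  rw [Fintype.sum_pow]
  refine Finset.sum_congr rfl fun k _ => ?_
  rw [← Real.exp_sum, Finset.mul_sum]

lemma tendsto_sqrt_mul_Gf :
    Tendsto (fun t : ℝ => Real.sqrt t * Gf t) atTop (𝓝 (1 / (2 * Real.sqrt Real.pi))) := by
  have h1 : ∀ᶠ t : ℝ in atTop, (1 / Real.pi) * ∫ y in (0 : ℝ)..(Real.pi * Real.sqrt t),
      Real.exp (-y ^ 2) = Real.sqrt t * Gf t := by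
    filter_upwards [eventually_gt_atTop 0] with t ht
    have hs : 0 < Real.sqrt t := Real.sqrt_pos.2 ht
    unfold Gf
    have h2 := intervalIntegral.integral_comp_mul_left (a := 0) (b := Real.pi)
      (fun x => Real.exp (-x ^ 2)) (c := Real.sqrt t) hs.ne'
    have h3 : ∀ x : ℝ, Real.exp (-(Real.sqrt t * x) ^ 2) = Real.exp (-t * x ^ 2) := by
      intro x
      congr 1
      rw [mul_pow, Real.sq_sqrt ht.le]; ring
    simp_rw [h3] at h2
    rw [h2, smul_eq_mul, mul_zero, mul_comm (Real.sqrt t) Real.pi]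
    field_simp
  refine Tendsto.congr' h1 ?_
  have hint : MeasureTheory.IntegrableOn (fun y : ℝ => Real.exp (-y ^ 2)) (Set.Ioi 0) := by
    have := integrable_exp_neg_mul_sq (b := 1) one_pos
    simp only [neg_mul, one_mul] at this
    exact this.integrableOn
  have hlim : Tendsto (fun t : ℝ => Real.pi * Real.sqrt t) atTop atTop :=
    Tendsto.const_mul_atTop Real.pi_pos Real.tendsto_sqrt_atTop
  have h4 := MeasureTheory.intervalIntegral_tendsto_integral_Ioi 0 hint hlim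
  have h5 := integral_gaussian_Ioi 1
  simp only [neg_mul, one_mul, div_one] at h5
  rw [h5] at h4
  have h6 := h4.const_mul (1 / Real.pi)
  convert h6 using 2
  have hp : 0 < Real.sqrt Real.pi := Real.sqrt_pos.2 Real.pi_pos
  field_simp
  rw [Real.sq_sqrt Real.pi_pos.le]

end Vale.Agent.Lib.P361H29
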