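import Vale.Agent.Lib.P361H29.BoxModes
import Vale.Agent.Lib.P361H29.Sums

set_option linter.unusedSimpArgs false

open Matrix Filter Topology

namespace Vale.Agent.Lib.P361H29

/-- finite volume magnetization per site -/
noncomputable def magN (n N : ℕ) (β h : ℝ) : ℝ :=
  ev (NormedSpace.exp (-(β : ℂ) • (heisenberg n (boxAdj N) - (h : ℂ) • totalSpin n (Box N))))
    (totalSpin n (Box N)) /
  ((Fintype.card (Box N) : ℝ) *
    ev (NormedSpace.exp (-(β : ℂ) • (heisenberg n (boxAdj N) - (h : ℂ) • totalSpin n (Box N)))) 1)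

lemma ev_one_pos {V : Type*} [Fintype V] [DecidableEq V] (n : ℕ) (adj : V → V → Prop)
    [DecidableRel adj] (hs : ∀ x y, adj x y → adj y x) (hi : ∀ x, ¬ adj x x) (β h : ℝ) :
    0 < ev (NormedSpace.exp (-(β : ℂ) • (heisenberg n adj - (h : ℂ) • totalSpin n V))) 1 := by
  rw [ev, Matrix.mul_one]
  apply trace_exp_pos
  have := ham_isHermitian n adj hs hi h
  rw [Matrix.IsHermitian, Matrix.conjTranspose_smul, this.eq]
  simp

/-- Convexity bound for the pressure. -/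
lemma pressure_diff {V : Type*} [Fintype V] [DecidableEq V] [Nonempty V] (n : ℕ)
    (adj : V → V → Prop)
    [DecidableRel adj] (hs : ∀ x y, adj x y → adj y x) (hi : ∀ x, ¬ adj x x) (β : ℝ)
    (hβ : 0 < β) (h h' : ℝ) :
    (h - h') * (ev (NormedSpace.exp (-(β : ℂ) • (heisenberg n adj - (h' : ℂ) • totalSpin n V)))
        (totalSpin n V) / ((Fintype.card V : ℝ) *
      ev (NormedSpace.exp (-(β : ℂ) • (heisenberg n adj - (h' : ℂ) • totalSpin n V))) 1))
    ≤ graphPressure n adj β h - graphPressure n adj β h' := by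
  set A := -(β : ℂ) • (heisenberg n adj - (h' : ℂ) • totalSpin n V) with hA
  set B := ((β * (h - h') : ℝ) : ℂ) • totalSpin n V with hB
  have hAH : A.IsHermitian := by
    have := ham_isHermitian n adj hs hi h'
    rw [Matrix.IsHermitian, hA, Matrix.conjTranspose_smul, this.eq]
    simp
  have hBH : B.IsHermitian := by
    rw [Matrix.IsHermitian, hB, Matrix.conjTranspose_smul, (totalSpin_isHermitian n).eq]
    simp
  have hAB : A + B = -(β : ℂ) • (heisenberg n adj - (h : ℂ) • totalSpin n V) := by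
    rw [hA, hB]
    push_cast
    module
  have hpb := peierls_bogoliubov A B hAH hBH
  rw [hAB] at hpb
  have hZ' : 0 < (NormedSpace.exp A).trace.re := trace_exp_pos A hAH
  have hZ : 0 < (NormedSpace.exp (-(β : ℂ) • (heisenberg n adj - (h : ℂ) • totalSpin n V))).trace.re := by
    rw [← hAB]; exact trace_exp_pos _ (hAH.add hBH)
  have h1 := Real.log_le_log (by positivity) hpb
  rw [Real.log_mul hZ'.ne' (Real.exp_pos _).ne', Real.log_exp] at h1
  have h2 : (NormedSpace.exp A * B).trace.re = β * (h - h') * ev (NormedSpace.exp A) (totalSpin n V) := by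
    rw [hB]
    exact ev_smul _ _ _
  have h3 : ev (NormedSpace.exp A) 1 = (NormedSpace.exp A).trace.re := by
    rw [ev, Matrix.mul_one]
  rw [h3]
  rw [h2] at h1
  have hc : 0 < (Fintype.card V : ℝ) := by exact_mod_cast Fintype.card_pos
  unfold graphPressure
  rw [← hA, ← mul_sub]
  have h4 : (β * (Fintype.card V : ℝ))⁻¹ * (β * (h - h') * ev (NormedSpace.exp A) (totalSpin n V) /
      (NormedSpace.exp A).trace.re) ≤ (β * (Fintype.card V : ℝ))⁻¹ *
      (Real.log (NormedSpace.exp (-(β : ℂ) • (heisenberg n adj - (h : ℂ) • totalSpin n V))).trace.re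
        - Real.log (NormedSpace.exp A).trace.re) := by
    apply mul_le_mul_of_nonneg_left _ (by positivity)
    linarith
  refine le_trans (le_of_eq ?_) h4
  field_simp

/-- lower bound of the Bose sum -/
lemma bose_sum_lower (N J : ℕ) (β h lam : ℝ) (hβ : 0 < β) (hh : 0 < h) (hlam : 0 < lam) :
    ((2 * N + 1 : ℕ) : ℝ) ^ 3 * ∑ j ∈ Finset.range J, Real.exp (-((j : ℝ) + 1) * (β * h)) *
        (max 0 (Gf (((j : ℝ) + 1) * (β * lam)) - 1 / ((2 * N + 1 : ℕ) : ℝ))) ^ 3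
        ≤ ∑ k, 1 / (Real.exp (β * (2 * lam * disp N k + h)) - 1) := by
  have h1 : ∀ k : Fin 3 → Fin (2 * N + 1), ∑ j ∈ Finset.range J,
      Real.exp (-((j : ℝ) + 1) * (β * (2 * lam * disp N k + h)))
      ≤ 1 / (Real.exp (β * (2 * lam * disp N k + h)) - 1) := by
    intro k
    apply geom_lower
    have := disp_nonneg N k
    positivity
  refine le_trans ?_ (Finset.sum_le_sum fun k _ => h1 k)
  rw [Finset.sum_comm, Finset.mul_sum]
  refine Finset.sum_le_sum fun j _ => ?_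
  have h2 : ∀ k : Fin 3 → Fin (2 * N + 1),
      Real.exp (-((j : ℝ) + 1) * (β * (2 * lam * disp N k + h)))
      = Real.exp (-((j : ℝ) + 1) * (β * h)) *
        Real.exp (-(2 * (((j : ℝ) + 1) * (β * lam))) *
          ∑ i, (1 - Real.cos (2 * Real.pi * ((k i : ℕ) : ℝ) / (2 * N + 1)))) := by
    intro k
    rw [← Real.exp_add, disp]
    congr 1
    ring
  simp_rw [h2]
  rw [← Finset.mul_sum, three_dim_sum]
  have h3 := one_dim_lower N (((j : ℝ) + 1) * (β * lam)) (by positivity)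
  have hS1nn : 0 ≤ ∑ a : Fin (2 * N + 1), Real.exp (-(2 * (((j : ℝ) + 1) * (β * lam))) *
      (1 - Real.cos (2 * Real.pi * ((a : ℕ) : ℝ) / (2 * N + 1)))) :=
    Finset.sum_nonneg fun a _ => (Real.exp_pos _).le
  generalize (∑ a : Fin (2 * N + 1), Real.exp (-(2 * (((j : ℝ) + 1) * (β * lam))) *
    (1 - Real.cos (2 * Real.pi * ((a : ℕ) : ℝ) / (2 * N + 1))))) = S1 at h3 hS1nn ⊢
  have hL0 : (0 : ℝ) < ((2 * N + 1 : ℕ) : ℝ) := by positivity
  generalize ((2 * N + 1 : ℕ) : ℝ) = L at h3 hL0 ⊢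
  generalize Gf (((j : ℝ) + 1) * (β * lam)) = G at h3 ⊢
  have h4 : L * max 0 (G - 1 / L) ≤ S1 := by
    rcases le_total 0 (G - 1 / L) with h | h
    · rw [max_eq_right h, mul_sub, mul_one_div_cancel hL0.ne']
      exact h3
    · rw [max_eq_left h, mul_zero]; exact hS1nn
  have h5 : (L * max 0 (G - 1 / L)) ^ 3 ≤ S1 ^ 3 :=
    pow_le_pow_left₀ (mul_nonneg hL0.le (le_max_left _ _)) h4 3
  calc L ^ 3 * (Real.exp (-((j : ℝ) + 1) * (β * h)) * max 0 (G - 1 / L) ^ 3)
      = Real.exp (-((j : ℝ) + 1) * (β * h)) * (L * max 0 (G - 1 / L)) ^ 3 := by ring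
    _ ≤ _ := mul_le_mul_of_nonneg_left h5 (Real.exp_pos _).le

/-- final arithmetic -/
lemma arith_bound (n τ T t M L Sg lam : ℝ) (hn : 1 ≤ n) (hτ0 : 0 < τ) (hτ1 : τ < 1)
    (hT0 : 0 < T) (hL0 : 0 < L) (hSg0 : 0 ≤ Sg) (hMt : M = n / 2 * T - t)
    (hMge : τ * (n / 2) * T ≤ M) (hmain : M * (L ^ 3 * Sg) ≤ n / 2 * L ^ 3 * t) :
    M / T ≤ n / 2 - τ * Sg := by
  have h7 : (τ * (n / 2) * T) * (L ^ 3 * Sg) ≤ n / 2 * L ^ 3 * t :=
    le_trans (mul_le_mul_of_nonneg_right hMge (by positivity)) hmain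
  have h8 : τ * T * Sg ≤ t := by
    have h9 : (n / 2 * L ^ 3) * (τ * T * Sg) ≤ (n / 2 * L ^ 3) * t := by
      calc (n / 2 * L ^ 3) * (τ * T * Sg) = (τ * (n / 2) * T) * (L ^ 3 * Sg) := by ring
        _ ≤ _ := h7
    exact le_of_mul_le_mul_left h9 (by positivity)
  rw [div_le_iff₀ hT0, hMt]
  nlinarith

lemma arith_cond (n τ T t M : ℝ) (hn : 1 ≤ n) (hτ0 : 0 < τ) (hτ1 : τ < 1)
    (hT0 : 0 < T) (hMt : M = n / 2 * T - t)
    (hMge : τ * (n / 2) * T ≤ M) :
    n ^ 2 * T + 2 * t ≤ 4 * ((n + 1 - τ) / (2 * τ)) * M := by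
  have h1 : t ≤ n / 2 * (1 - τ) * T := by
    have : t = n / 2 * T - M := by linarith
    rw [this]; nlinarith
  have hlam0 : 0 < (n + 1 - τ) / (2 * τ) := by apply div_pos <;> linarith
  have h2 : 4 * ((n + 1 - τ) / (2 * τ)) * (τ * (n / 2) * T) ≤ 4 * ((n + 1 - τ) / (2 * τ)) * M :=
    mul_le_mul_of_nonneg_left hMge (by positivity)
  have h3 : 4 * ((n + 1 - τ) / (2 * τ)) * (τ * (n / 2) * T) = (n + 1 - τ) * n * T := by
    field_simp; ring
  rw [h3] at h2
  nlinarith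

/-- bound for the finite volume magnetization -/
theorem magN_bound (n N J : ℕ) (hn : 1 ≤ n) (β h τ : ℝ) (hβ : 0 < β) (hh : 0 < h)
    (hτ0 : 0 < τ) (hτ1 : τ < 1) :
    magN n N β h ≤ max (τ * ((n : ℝ) / 2)) ((n : ℝ) / 2 -
      τ * ∑ j ∈ Finset.range J, Real.exp (-((j : ℝ) + 1) * (β * h)) *
        (max 0 (Gf (((j : ℝ) + 1) * (β * (((n : ℝ) + 1 - τ) / (2 * τ)))) -
          1 / ((2 * N + 1 : ℕ) : ℝ))) ^ 3) := by
  have hnR : (1 : ℝ) ≤ n := by exact_mod_cast hn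
  have hlam0 : 0 < ((n : ℝ) + 1 - τ) / (2 * τ) := by apply div_pos <;> linarith
  have hlow := bose_sum_lower N J β h (((n : ℝ) + 1 - τ) / (2 * τ)) hβ hh hlam0
  have hev1 := ev_one_pos n (boxAdj N) (boxAdj_symm N) (boxAdj_irrefl N) β h
  have hmain := box_modes n N β h hβ hh _ rfl (((n : ℝ) + 1 - τ) / (2 * τ)) hlam0
  have hMt0 : ∀ ρ : Matrix (Box N → Fin (n + 1)) (Box N → Fin (n + 1)) ℂ,
      ev ρ (totalSpin n (Box N)) = (n : ℝ) / 2 * ((Fintype.card (Box N) : ℝ) * ev ρ 1)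
        - ∑ x, ev ρ (Nop n x) := by
    intro ρ
    rw [totalSpin_eq, ev_sum]
    simp_rw [Zop_eq, ev_sub, ev_smul]
    rw [Finset.sum_sub_distrib, Finset.sum_const, Finset.card_univ, nsmul_eq_mul]
    ring
  have hMt := hMt0 (NormedSpace.exp (-(β : ℂ) •
    (heisenberg n (boxAdj N) - (h : ℂ) • totalSpin n (Box N))))
  have hcard : (Fintype.card (Box N) : ℝ) = ((2 * N + 1 : ℕ) : ℝ) ^ 3 := by
    rw [card_box]; push_cast; ring
  unfold magN
  generalize (NormedSpace.exp (-(β : ℂ) •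
    (heisenberg n (boxAdj N) - (h : ℂ) • totalSpin n (Box N)))) = ρ at hev1 hmain hMt ⊢
  have hL0 : (0 : ℝ) < ((2 * N + 1 : ℕ) : ℝ) := by positivity
  have hT0 : 0 < (Fintype.card (Box N) : ℝ) * ev ρ 1 := by
    rw [hcard]; positivity
  generalize (Fintype.card (Box N) : ℝ) * ev ρ 1 = T at hmain hMt hT0 ⊢
  generalize ev ρ (totalSpin n (Box N)) = M at hmain hMt ⊢
  generalize ∑ x, ev ρ (Nop n x) = t at hmain hMt ⊢
  by_cases hcase : M / T ≤ τ * ((n : ℝ) / 2)
  · exact le_trans hcase (le_max_left _ _)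
  · push Not at hcase
    refine le_trans ?_ (le_max_right _ _)
    have hMge : τ * ((n : ℝ) / 2) * T ≤ M := by
      rw [lt_div_iff₀ hT0] at hcase; exact hcase.le
    have hmain' := hmain (arith_cond n τ T t M hnR hτ0 hτ1 hT0 hMt hMge)
    have hM0 : 0 ≤ M := le_trans (by positivity) hMge
    have hSg0 : 0 ≤ ∑ j ∈ Finset.range J, Real.exp (-((j : ℝ) + 1) * (β * h)) *
        (max 0 (Gf (((j : ℝ) + 1) * (β * (((n : ℝ) + 1 - τ) / (2 * τ)))) -
          1 / ((2 * N + 1 : ℕ) : ℝ))) ^ 3 := Finset.sum_nonneg fun j _ =>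
      mul_nonneg (Real.exp_pos _).le (pow_nonneg (le_max_left _ _) 3)
    exact arith_bound n τ T t M _ _ 1 hnR hτ0 hτ1 hT0 hL0 hSg0 hMt hMge
      (le_trans (mul_le_mul_of_nonneg_left hlow hM0) hmain')

/-- the limiting bound -/
noncomputable def limBound (n J : ℕ) (β h τ : ℝ) : ℝ :=
  max (τ * ((n : ℝ) / 2)) ((n : ℝ) / 2 -
      τ * ∑ j ∈ Finset.range J, Real.exp (-((j : ℝ) + 1) * (β * h)) *
        (Gf (((j : ℝ) + 1) * (β * (((n : ℝ) + 1 - τ) / (2 * τ))))) ^ 3)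

/-- Any limit of the finite volume pressures satisfies the bound. -/
theorem pressure_limit_bound (n J : ℕ) (hn : 1 ≤ n) (β h τ : ℝ) (hβ : 0 < β) (hh : 0 < h)
    (hτ0 : 0 < τ) (hτ1 : τ < 1) (ph p0 : ℝ)
    (h1 : Tendsto (fun N : ℕ => graphPressure n (boxAdj N) β h) atTop (𝓝 ph))
    (h0 : Tendsto (fun N : ℕ => graphPressure n (boxAdj N) β 0) atTop (𝓝 p0)) :
    ph - p0 ≤ h * limBound n J β h τ := by
  have hlim : Tendsto (fun N : ℕ => h * max (τ * ((n : ℝ) / 2)) ((n : ℝ) / 2 -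
      τ * ∑ j ∈ Finset.range J, Real.exp (-((j : ℝ) + 1) * (β * h)) *
        (max 0 (Gf (((j : ℝ) + 1) * (β * (((n : ℝ) + 1 - τ) / (2 * τ)))) -
          1 / ((2 * N + 1 : ℕ) : ℝ))) ^ 3)) atTop (𝓝 (h * limBound n J β h τ)) := by
    apply Tendsto.const_mul
    unfold limBound
    apply Tendsto.max tendsto_const_nhds
    apply Tendsto.const_sub
    apply Tendsto.const_mul
    apply tendsto_finsetSum
    intro j _
    apply Tendsto.const_mul
    apply Tendsto.pow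
    have h2 : Tendsto (fun N : ℕ => 1 / ((2 * N + 1 : ℕ) : ℝ)) atTop (𝓝 0) := by
      have h3 : Tendsto (fun N : ℕ => 2 * N + 1) atTop atTop := by
        apply tendsto_atTop_mono (fun N => (by omega : N ≤ 2 * N + 1)) tendsto_id
      exact (tendsto_one_div_atTop_nhds_zero_nat (𝕜 := ℝ)).comp h3
    have h4 := (tendsto_const_nhds (x := (0 : ℝ)) (f := (atTop : Filter ℕ))).max
      (h2.const_sub (Gf (((j : ℝ) + 1) * (β * (((n : ℝ) + 1 - τ) / (2 * τ))))))
    rw [sub_zero, max_eq_right (Gf_nonneg _)] at h4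
    exact h4
  refine le_of_tendsto_of_tendsto' (h1.sub h0) hlim fun N => ?_
  have hb := magN_bound n N J hn β h τ hβ hh hτ0 hτ1
  haveI : Nonempty (Box N) := ⟨fun _ => ⟨0, by simp⟩⟩
  have hd := pressure_diff n (boxAdj N) (boxAdj_symm N) (boxAdj_irrefl N) β hβ 0 h
  have hd' : graphPressure n (boxAdj N) β h - graphPressure n (boxAdj N) β 0 ≤ h * magN n N β h := by
    have e : magN n N β h = ev (NormedSpace.exp (-(β : ℂ) •
        (heisenberg n (boxAdj N) - (h : ℂ) • totalSpin n (Box N))))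
        (totalSpin n (Box N)) / ((Fintype.card (Box N) : ℝ) *
        ev (NormedSpace.exp (-(β : ℂ) •
          (heisenberg n (boxAdj N) - (h : ℂ) • totalSpin n (Box N)))) 1) := rfl
    rw [e]
    linarith
  exact le_trans hd' (mul_le_mul_of_nonneg_left hb hh.le)

end Vale.Agent.Lib.P361H29
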