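import Vale.Agent.Lib.P361H29.Modes

set_option linter.unusedSimpArgs false

open Matrix

namespace Vale.Agent.Lib.P361H29

/-- phases -/
noncomputable def phase (N : ℕ) (k : Fin 3 → Fin (2 * N + 1)) (v : Box N) : ℝ :=
  ∑ i, 2 * Real.pi * ((k i : ℕ) : ℝ) * (((v i : ℤ)) : ℝ) / (2 * N + 1)

/-- plane waves -/
noncomputable def wave (N : ℕ) (k : Fin 3 → Fin (2 * N + 1)) (v : Box N) : ℂ :=
  Complex.exp ((phase N k v : ℂ) * Complex.I)

lemma star_wave (N : ℕ) (k : Fin 3 → Fin (2 * N + 1)) (v : Box N) :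
    star (wave N k v) = Complex.exp (-((phase N k v : ℂ) * Complex.I)) := by
  rw [wave, Complex.star_def, ← Complex.exp_conj]
  congr 1
  simp

lemma wave_norm (N : ℕ) (k : Fin 3 → Fin (2 * N + 1)) (v : Box N) :
    star (wave N k v) * wave N k v = 1 := by
  rw [star_wave, wave, ← Complex.exp_add]
  simp

lemma wave_cos (N : ℕ) (k : Fin 3 → Fin (2 * N + 1)) (u v : Box N) :
    star (wave N k u) * wave N k v + wave N k u * star (wave N k v)
      = 2 * ((Real.cos (phase N k u - phase N k v) : ℝ) : ℂ) := by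
  rw [star_wave, star_wave, wave, wave, ← Complex.exp_add, ← Complex.exp_add, Complex.ofReal_cos,
    Complex.two_cos]
  push_cast
  rw [add_comm]
  congr 2 <;> ring

lemma one_dim_sum (L : ℕ) (hL : 0 < L) (d : ℤ) (hd : |d| < L) :
    ∑ j : Fin L, Complex.exp ((((2 * Real.pi * ((j : ℕ) : ℝ) * (d : ℝ) / L : ℝ)) : ℂ) * Complex.I)
      = if d = 0 then (L : ℂ) else 0 := by
  have hLC : (L : ℂ) ≠ 0 := by exact_mod_cast hL.ne'
  by_cases h : d = 0
  · subst h; simp
  · rw [if_neg h]
    set z : ℂ := Complex.exp (2 * Real.pi * Complex.I * (d / L)) with hz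
    have h1 : ∀ j : Fin L, Complex.exp ((((2 * Real.pi * ((j : ℕ) : ℝ) * (d : ℝ) / L : ℝ)) : ℂ) *
        Complex.I) = z ^ (j : ℕ) := by
      intro j
      rw [hz, ← Complex.exp_nat_mul]
      congr 1
      push_cast
      ring
    simp_rw [h1]
    rw [Fin.sum_univ_eq_sum_range (fun j => z ^ j)]
    have hz1 : z ≠ 1 := by
      intro hc
      rw [hz, Complex.exp_eq_one_iff] at hc
      obtain ⟨m, hm⟩ := hc
      have h2 : (2 * Real.pi * Complex.I : ℂ) ≠ 0 := Complex.two_pi_I_ne_zero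
      have h3 : ((d : ℂ) / L) = m := by
        have h4 : (2 * Real.pi * Complex.I : ℂ) * ((d : ℂ) / L)
            = (2 * Real.pi * Complex.I : ℂ) * m := by rw [hm]; ring
        exact mul_left_cancel₀ h2 h4
      have h5 : (d : ℂ) = m * L := by
        rw [← h3]; field_simp
      have h6 : d = m * L := by exact_mod_cast h5
      have hm0 : m ≠ 0 := by
        intro h0; apply h; rw [h6, h0]; simp
      have : (L : ℤ) ≤ |d| := by
        rw [h6, abs_mul, abs_of_pos (by exact_mod_cast hL : (0 : ℤ) < L)]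
        have := Int.one_le_abs hm0
        nlinarith [Int.natCast_nonneg L]
      omega
    have hzL : z ^ L = 1 := by
      rw [hz, ← Complex.exp_nat_mul, Complex.exp_eq_one_iff]
      refine ⟨d, ?_⟩
      field_simp
    rw [geom_sum_eq hz1, hzL]
    simp

lemma box_coord_bound (N : ℕ) (v : Box N) (i : Fin 3) : -(N : ℤ) ≤ (v i : ℤ) ∧ (v i : ℤ) ≤ N := by
  have := (v i).2
  rwa [Finset.mem_Icc] at this

lemma wave_complete (N : ℕ) (u v : Box N) :
    ∑ k : Fin 3 → Fin (2 * N + 1), wave N k u * star (wave N k v)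
      = if u = v then ((Fintype.card (Fin 3 → Fin (2 * N + 1)) : ℕ) : ℂ) else 0 := by
  have h1 : ∀ k : Fin 3 → Fin (2 * N + 1), wave N k u * star (wave N k v)
      = ∏ i, Complex.exp ((((2 * Real.pi * ((k i : ℕ) : ℝ) * ((((u i : ℤ) - (v i : ℤ)) : ℤ) : ℝ) /
        ((2 * N + 1 : ℕ) : ℝ) : ℝ)) : ℂ) * Complex.I) := by
    intro k
    rw [star_wave, wave, ← Complex.exp_add, ← Complex.exp_sum]
    congr 1
    rw [← Finset.sum_mul, ← sub_eq_add_neg, ← sub_mul]
    congr 1
    rw [← Complex.ofReal_sum, ← Complex.ofReal_sub]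
    congr 1
    rw [phase, phase, ← Finset.sum_sub_distrib]
    refine Finset.sum_congr rfl fun i _ => ?_
    push_cast
    ring
  simp_rw [h1]
  have h2 := Finset.prod_univ_sum (fun _ : Fin 3 => (Finset.univ : Finset (Fin (2 * N + 1))))
    (fun i j => Complex.exp ((((2 * Real.pi * ((j : ℕ) : ℝ) * ((((u i : ℤ) - (v i : ℤ)) : ℤ) : ℝ) /
        ((2 * N + 1 : ℕ) : ℝ) : ℝ)) : ℂ) * Complex.I))
  rw [Fintype.piFinset_univ] at h2
  rw [← h2]
  have h3 : ∀ i : Fin 3, ∑ j : Fin (2 * N + 1), Complex.exp ((((2 * Real.pi * ((j : ℕ) : ℝ) *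
      ((((u i : ℤ) - (v i : ℤ)) : ℤ) : ℝ) / ((2 * N + 1 : ℕ) : ℝ) : ℝ)) : ℂ) * Complex.I)
      = if (u i : ℤ) - (v i : ℤ) = 0 then ((2 * N + 1 : ℕ) : ℂ) else 0 := by
    intro i
    apply one_dim_sum (2 * N + 1) (by omega) ((u i : ℤ) - (v i : ℤ))
    have hu := box_coord_bound N u i
    have hv := box_coord_bound N v i
    rw [abs_lt]
    push_cast
    constructor <;> omega
  simp_rw [h3]
  by_cases huv : u = v
  · subst huv
    simp
  · rw [if_neg huv]
    obtain ⟨i, hi⟩ := Function.ne_iff.mp huv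
    apply Finset.prod_eq_zero (Finset.mem_univ i)
    rw [if_neg]
    intro h
    apply hi
    ext
    omega

/-- dispersion -/
noncomputable def disp (N : ℕ) (k : Fin 3 → Fin (2 * N + 1)) : ℝ :=
  ∑ i, (1 - Real.cos (2 * Real.pi * ((k i : ℕ) : ℝ) / (2 * N + 1)))

lemma disp_nonneg (N : ℕ) (k : Fin 3 → Fin (2 * N + 1)) : 0 ≤ disp N k :=
  Finset.sum_nonneg fun i _ => by linarith [Real.cos_le_one (2 * Real.pi * ((k i : ℕ) : ℝ) / (2 * N + 1))]

lemma boxAdj_symm (N : ℕ) (x y : Box N) (h : boxAdj N x y) : boxAdj N y x := by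
  unfold boxAdj at *
  rw [← h]
  refine Finset.sum_congr rfl fun i _ => ?_
  rw [abs_sub_comm]

lemma boxAdj_irrefl (N : ℕ) (x : Box N) : ¬ boxAdj N x x := by
  unfold boxAdj
  simp

/-- structure of neighbours -/
lemma boxAdj_cases (N : ℕ) (u v : Box N) (h : boxAdj N u v) :
    ∃ i : Fin 3, ∃ s : Bool, ∀ j, (v j : ℤ) = (u j : ℤ) +
      (if j = i then (if s then 1 else -1) else 0) := by
  unfold boxAdj at h
  rw [Fin.sum_univ_three] at h
  have h0 := abs_nonneg ((u 0 : ℤ) - (v 0 : ℤ))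
  have h1 := abs_nonneg ((u 1 : ℤ) - (v 1 : ℤ))
  have h2 := abs_nonneg ((u 2 : ℤ) - (v 2 : ℤ))
  have aux : ∀ a : ℤ, |a| = 1 → a = 1 ∨ a = -1 := by
    intro a ha
    rcases abs_eq (by norm_num : (0 : ℤ) ≤ 1) |>.mp ha with h | h
    · left; exact h
    · right; exact h
  have aux0 : ∀ a : ℤ, |a| = 0 → a = 0 := fun a ha => abs_eq_zero.mp ha
  have hj : ∀ j : Fin 3, j = 0 ∨ j = 1 ∨ j = 2 := by decide
  rcases (by omega : (|((u 0 : ℤ)) - (v 0 : ℤ)| = 1 ∧ |((u 1 : ℤ)) - (v 1 : ℤ)| = 0 ∧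
      |((u 2 : ℤ)) - (v 2 : ℤ)| = 0) ∨ (|((u 0 : ℤ)) - (v 0 : ℤ)| = 0 ∧
      |((u 1 : ℤ)) - (v 1 : ℤ)| = 1 ∧ |((u 2 : ℤ)) - (v 2 : ℤ)| = 0) ∨
      (|((u 0 : ℤ)) - (v 0 : ℤ)| = 0 ∧ |((u 1 : ℤ)) - (v 1 : ℤ)| = 0 ∧
      |((u 2 : ℤ)) - (v 2 : ℤ)| = 1)) with ⟨a, b, c⟩ | ⟨a, b, c⟩ | ⟨a, b, c⟩
  · have hb := aux0 _ b
    have hc := aux0 _ c
    rcases aux _ a with ha | ha
    · refine ⟨0, false, fun j => ?_⟩
      rcases hj j with rfl | rfl | rfl
      · rw [if_pos rfl]; simp only [if_true, Bool.false_eq_true, if_false]; omega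
      · rw [if_neg (by decide)]; omega
      · rw [if_neg (by decide)]; omega
    · refine ⟨0, true, fun j => ?_⟩
      rcases hj j with rfl | rfl | rfl
      · rw [if_pos rfl]; simp only [if_true, Bool.false_eq_true, if_false]; omega
      · rw [if_neg (by decide)]; omega
      · rw [if_neg (by decide)]; omega
  · have ha := aux0 _ a
    have hc := aux0 _ c
    rcases aux _ b with hb | hb
    · refine ⟨1, false, fun j => ?_⟩
      rcases hj j with rfl | rfl | rfl
      · rw [if_neg (by decide)]; omega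
      · rw [if_pos rfl]; simp only [if_true, Bool.false_eq_true, if_false]; omega
      · rw [if_neg (by decide)]; omega
    · refine ⟨1, true, fun j => ?_⟩
      rcases hj j with rfl | rfl | rfl
      · rw [if_neg (by decide)]; omega
      · rw [if_pos rfl]; simp only [if_true, Bool.false_eq_true, if_false]; omega
      · rw [if_neg (by decide)]; omega
  · have ha := aux0 _ a
    have hb := aux0 _ b
    rcases aux _ c with hc | hc
    · refine ⟨2, false, fun j => ?_⟩
      rcases hj j with rfl | rfl | rfl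
      · rw [if_neg (by decide)]; omega
      · rw [if_neg (by decide)]; omega
      · rw [if_pos rfl]; simp only [if_true, Bool.false_eq_true, if_false]; omega
    · refine ⟨2, true, fun j => ?_⟩
      rcases hj j with rfl | rfl | rfl
      · rw [if_neg (by decide)]; omega
      · rw [if_neg (by decide)]; omega
      · rw [if_pos rfl]; simp only [if_true, Bool.false_eq_true, if_false]; omega

lemma phase_diff (N : ℕ) (k : Fin 3 → Fin (2 * N + 1)) (u v : Box N) (i : Fin 3) (s : Bool)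
    (h : ∀ j, (v j : ℤ) = (u j : ℤ) + (if j = i then (if s then 1 else -1) else 0)) :
    Real.cos (phase N k u - phase N k v)
      = Real.cos (2 * Real.pi * ((k i : ℕ) : ℝ) / (2 * N + 1)) := by
  have h1 : phase N k u - phase N k v
      = -(if s then 1 else -1) * (2 * Real.pi * ((k i : ℕ) : ℝ) / (2 * N + 1)) := by
    rw [phase, phase, ← Finset.sum_sub_distrib]
    rw [Finset.sum_eq_single i]
    · rw [h i, if_pos rfl]
      cases s
      · simp only [Bool.false_eq_true, if_false]; push_cast; ring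
      · simp only [if_true]; push_cast; ring
    · intro j _ hj
      rw [h j, if_neg hj]
      simp
    · intro h; exact absurd (Finset.mem_univ _) h
  rw [h1]
  cases s
  · simp
  · simp

lemma neighbour_sum (N : ℕ) (k : Fin 3 → Fin (2 * N + 1)) (u : Box N) :
    ∑ v, (if boxAdj N u v then (1 - Real.cos (phase N k u - phase N k v)) else 0)
      ≤ 2 * disp N k := by
  classical
  let R : Box N → Fin 3 × Bool → Prop := fun v p =>
    ∀ j, (v j : ℤ) = (u j : ℤ) + (if j = p.1 then (if p.2 then 1 else -1) else 0)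
  set g : Fin 3 → ℝ := fun i => 1 - Real.cos (2 * Real.pi * ((k i : ℕ) : ℝ) / (2 * N + 1)) with hg
  have hg0 : ∀ i, 0 ≤ g i := fun i => by
    simp only [hg]; linarith [Real.cos_le_one (2 * Real.pi * ((k i : ℕ) : ℝ) / (2 * N + 1))]
  have h1 : ∀ v, (if boxAdj N u v then (1 - Real.cos (phase N k u - phase N k v)) else 0)
      ≤ ∑ p : Fin 3 × Bool, if R v p then g p.1 else 0 := by
    intro v
    have hnn : ∀ p ∈ (Finset.univ : Finset (Fin 3 × Bool)), 0 ≤ (if R v p then g p.1 else 0) := by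
      intro p _
      split_ifs
      · exact hg0 _
      · exact le_refl _
    by_cases h : boxAdj N u v
    · rw [if_pos h]
      obtain ⟨i, s, his⟩ := boxAdj_cases N u v h
      rw [phase_diff N k u v i s his]
      have h2 := Finset.single_le_sum hnn (Finset.mem_univ (i, s))
      have h3 : R v (i, s) := his
      rw [if_pos h3] at h2
      exact h2
    · rw [if_neg h]
      exact Finset.sum_nonneg hnn
  calc ∑ v, (if boxAdj N u v then (1 - Real.cos (phase N k u - phase N k v)) else 0)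
      ≤ ∑ v, ∑ p : Fin 3 × Bool, (if R v p then g p.1 else 0) :=
        Finset.sum_le_sum fun v _ => h1 v
    _ = ∑ p : Fin 3 × Bool, ∑ v, (if R v p then g p.1 else 0) := Finset.sum_comm
    _ ≤ ∑ p : Fin 3 × Bool, g p.1 := by
        refine Finset.sum_le_sum fun p _ => ?_
        rw [← Finset.sum_filter, Finset.sum_const, nsmul_eq_mul]
        have hcard : (Finset.univ.filter (fun v => R v p)).card ≤ 1 := by
          rw [Finset.card_le_one]
          intro a ha b hb
          rw [Finset.mem_filter] at ha hb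
          ext j
          rw [ha.2 j, hb.2 j]
        have : ((Finset.univ.filter (fun v => R v p)).card : ℝ) ≤ 1 := by exact_mod_cast hcard
        nlinarith [hg0 p.1]
    _ = 2 * disp N k := by
        rw [Fintype.sum_prod_type]
        simp only [Fintype.sum_bool, disp, hg, Finset.mul_sum]
        refine Finset.sum_congr rfl fun i _ => ?_
        ring

lemma card_box (N : ℕ) : Fintype.card (Box N) = (2 * N + 1) ^ 3 := by
  rw [Fintype.card_pi]
  simp only [Fintype.card_coe, Int.card_Icc, Finset.prod_const, Finset.card_univ, Fintype.card_fin]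
  congr 1
  omega

/-- The finite volume inequality on the box. -/
theorem box_modes (n N : ℕ) (β h : ℝ) (hβ : 0 < β) (hh : 0 < h)
    (ρ : Matrix (Box N → Fin (n + 1)) (Box N → Fin (n + 1)) ℂ)
    (hρ : ρ = NormedSpace.exp (-(β : ℂ) •
      (heisenberg n (boxAdj N) - (h : ℂ) • totalSpin n (Box N))))
    (lam : ℝ) (hlam : 0 < lam)
    (hcond : (n : ℝ) ^ 2 * (Fintype.card (Box N) * ev ρ 1) + 2 * ∑ x, ev ρ (Nop n x)
      ≤ 4 * lam * ev ρ (totalSpin n (Box N))) :
    ev ρ (totalSpin n (Box N)) * ∑ k, 1 / (Real.exp (β * (2 * lam * disp N k + h)) - 1)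
      ≤ (n : ℝ) / 2 * ((2 * N + 1 : ℕ) : ℝ) ^ 3 * ∑ x, ev ρ (Nop n x) := by
  have h1 := modes_ineq n (boxAdj N) (boxAdj_symm N) (boxAdj_irrefl N) β h hβ hh
    (wave N) (fun k u v => Real.cos (phase N k u - phase N k v)) (disp N) (wave_norm N)
    (wave_cos N) (fun k u v => Real.cos_le_one _) (fun k u v => by
      rw [← Real.cos_neg]; congr 1; ring) (wave_complete N) (disp_nonneg N)
    (neighbour_sum N) ρ hρ lam hlam hcond
  simpa using h1

end Vale.Agent.Lib.P361H29
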