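import Mathlib

/-!
Definitions for the spin-`S` quantum Heisenberg ferromagnet on the cubes `{-N,…,N}³`
with free boundary conditions, `S = n/2`.
-/

open Matrix Filter Topology

namespace Vale.Agent.Lib.P361H29

/-- The spin matrix `S³` for spin `S = n/2`, in the basis of its eigenvectors with eigenvalues
`S - k`, `k = 0, …, n`. -/
noncomputable def spinZ (n : ℕ) : Matrix (Fin (n + 1)) (Fin (n + 1)) ℂ :=
  Matrix.diagonal fun k => (n : ℂ) / 2 - ((k : ℕ) : ℂ)

/-- The raising matrix `S⁺ = S¹ + i S²` for spin `S = n/2`: it maps the `k`-th basis vector to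
`√(k (n + 1 - k))` times the `(k-1)`-st one. -/
noncomputable def spinPlus (n : ℕ) : Matrix (Fin (n + 1)) (Fin (n + 1)) ℂ :=
  fun i j => if (i : ℕ) + 1 = (j : ℕ) then
    ((Real.sqrt (((j : ℕ) : ℝ) * ((n : ℝ) + 1 - ((j : ℕ) : ℝ))) : ℝ) : ℂ) else 0

/-- The three spin-`n/2` matrices `S¹, S², S³` (indexed by `0, 1, 2`). -/
noncomputable def spin (n : ℕ) : Fin 3 → Matrix (Fin (n + 1)) (Fin (n + 1)) ℂ :=
  ![(1 / 2 : ℂ) • (spinPlus n + (spinPlus n)ᴴ),
    (-Complex.I / 2 : ℂ) • (spinPlus n - (spinPlus n)ᴴ),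
    spinZ n]

/-- The one-site matrix `A` acting at the site `x` of the tensor product, over the finite set `V`
of sites, of copies of `ℂ^(n+1)`. Matrices are indexed by configurations `V → Fin (n+1)`, i.e. by
the product basis. -/
noncomputable def siteOp {V : Type*} [Fintype V] [DecidableEq V] {n : ℕ} (x : V)
    (A : Matrix (Fin (n + 1)) (Fin (n + 1)) ℂ) :
    Matrix (V → Fin (n + 1)) (V → Fin (n + 1)) ℂ :=
  fun σ τ => if ∀ z, z ≠ x → σ z = τ z then A (σ x) (τ x) else 0

/-- The ferromagnetic Heisenberg Hamiltonian `-∑_{edges {x,y}} S_x · S_y` on a finite graph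
(the sum over ordered pairs counts every edge twice, whence the factor `1/2`). -/
noncomputable def heisenberg (n : ℕ) {V : Type*} [Fintype V] [DecidableEq V]
    (adj : V → V → Prop) [DecidableRel adj] :
    Matrix (V → Fin (n + 1)) (V → Fin (n + 1)) ℂ :=
  -((1 / 2 : ℂ) • ∑ x, ∑ y, if adj x y then
      ∑ a : Fin 3, siteOp x (spin n a) * siteOp y (spin n a) else 0)

/-- The total spin in direction `3`, `M = ∑_x S³_x`. -/
noncomputable def totalSpin (n : ℕ) (V : Type*) [Fintype V] [DecidableEq V] :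
    Matrix (V → Fin (n + 1)) (V → Fin (n + 1)) ℂ :=
  ∑ x : V, siteOp x (spin n 2)

/-- `(β |V|)⁻¹ log Tr exp(-β (H - h M))` on a finite graph. -/
noncomputable def graphPressure (n : ℕ) {V : Type*} [Fintype V] [DecidableEq V]
    (adj : V → V → Prop) [DecidableRel adj] (β h : ℝ) : ℝ :=
  (β * (Fintype.card V : ℝ))⁻¹ * Real.log
    (NormedSpace.exp (-(β : ℂ) • (heisenberg n adj - (h : ℂ) • totalSpin n V))).trace.re

/-- The cube `{-N, …, N}³`. -/
abbrev Box (N : ℕ) : Type := Fin 3 → ↥(Finset.Icc (-(N : ℤ)) (N : ℤ))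

/-- Nearest neighbours in the cube: `|x - y|₁ = 1`. -/
def boxAdj (N : ℕ) (x y : Box N) : Prop := ∑ i, |((x i : ℤ)) - (y i : ℤ)| = 1

instance (N : ℕ) : DecidableRel (boxAdj N) := fun x y =>
  inferInstanceAs (Decidable (∑ i, |((x i : ℤ)) - (y i : ℤ)| = 1))

/-- The infinite volume pressure `p_β(h) = lim_N (β |Λ_N|)⁻¹ log Tr exp(-β (H_N - h M_N))`. -/
noncomputable def pressure (n : ℕ) (β h : ℝ) : ℝ :=
  limUnder atTop fun N : ℕ => graphPressure n (boxAdj N) β h

/-- The spontaneous magnetization `m_S(β) = ∂⁺_h p_β(0)`, `S = n/2`. -/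
noncomputable def magnetization (n : ℕ) (β : ℝ) : ℝ :=
  derivWithin (pressure n β) (Set.Ioi 0) 0

end Vale.Agent.Lib.P361H29
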