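import Mathlib

set_option linter.unusedSimpArgs false

namespace Vale.Agent.Lib.P361H29

section Ring
variable {R : Type*} [Ring R] [Algebra ℂ R] {V : Type*} [Fintype V] [DecidableEq V]

/-- the (isotropic) exchange Hamiltonian in ladder form -/
noncomputable def exch (a : V → V → ℂ) (Z P Q : V → R) : R :=
  -((1 / 2 : ℂ) • ∑ x, ∑ y, a x y • (Z x * Z y + (1 / 2 : ℂ) • (P x * Q y + Q x * P y)))

omit [Algebra ℂ R] in
lemma comm_mul_left (X Y W : R) : X * Y * W - W * (X * Y) = X * (Y * W - W * Y) +
    (X * W - W * X) * Y := by noncomm_ring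

omit [Algebra ℂ R] in
lemma comm_mul_right (X Y W : R) : W * (X * Y) - X * Y * W = X * (W * Y - Y * W) +
    (W * X - X * W) * Y := by noncomm_ring

/-- first commutator -/
lemma comm_exch (a : V → V → ℂ) (ha : ∀ x y, a x y = a y x) (ha0 : ∀ x, a x x = 0)
    (Z P Q : V → R)
    (hZQ : ∀ x y, Z x * Q y - Q y * Z x = if x = y then -Q y else 0)
    (hQQ : ∀ x y, Q x * Q y = Q y * Q x)
    (hPQ : ∀ x y, P x * Q y - Q y * P x = if x = y then (2 : ℂ) • Z x else 0) (v : V) :
    exch a Z P Q * Q v - Q v * exch a Z P Q = ∑ x, a x v • (Z x * Q v - Q x * Z v) := by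
  have h1 : ∀ x y, (Z x * Z y + (1 / 2 : ℂ) • (P x * Q y + Q x * P y)) * Q v -
      Q v * (Z x * Z y + (1 / 2 : ℂ) • (P x * Q y + Q x * P y))
      = (if y = v then -(Z x * Q v) else 0) + (if x = v then -(Q v * Z y) else 0)
        + (if x = v then Z v * Q y else 0) + (if y = v then Q x * Z v else 0) := by
    intro x y
    have e1 : (Z x * Z y + (1 / 2 : ℂ) • (P x * Q y + Q x * P y)) * Q v -
      Q v * (Z x * Z y + (1 / 2 : ℂ) • (P x * Q y + Q x * P y))
      = (Z x * Z y * Q v - Q v * (Z x * Z y)) + (1 / 2 : ℂ) • (P x * Q y * Q v - Q v * (P x * Q y))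
        + (1 / 2 : ℂ) • (Q x * P y * Q v - Q v * (Q x * P y)) := by
      rw [add_mul, mul_add, smul_mul_assoc, mul_smul_comm, add_mul, mul_add]
      module
    rw [e1, comm_mul_left (Z x) (Z y), comm_mul_left (P x) (Q y), comm_mul_left (Q x) (P y),
      hZQ, hZQ, hPQ, hPQ, hQQ y v, hQQ x v, sub_self, sub_self]
    by_cases hxv : x = v
    · by_cases hyv : y = v
      · subst hxv; subst hyv
        simp only [if_true]
        simp only [mul_neg, neg_mul, mul_zero, zero_mul, smul_mul_assoc, mul_smul_comm]
        module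
      · subst hxv
        simp only [if_neg hyv, if_true]
        simp only [mul_neg, neg_mul, mul_zero, zero_mul, smul_mul_assoc, mul_smul_comm]
        module
    · by_cases hyv : y = v
      · subst hyv
        simp only [if_neg hxv, if_true]
        simp only [mul_neg, neg_mul, mul_zero, zero_mul, smul_mul_assoc, mul_smul_comm]
        module
      · simp [if_neg hxv, if_neg hyv]
  have h2 : exch a Z P Q * Q v - Q v * exch a Z P Q = -((1 / 2 : ℂ) • ∑ x, ∑ y, a x y •
      ((if y = v then -(Z x * Q v) else 0) + (if x = v then -(Q v * Z y) else 0)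
        + (if x = v then Z v * Q y else 0) + (if y = v then Q x * Z v else 0))) := by
    simp_rw [← h1]
    unfold exch
    simp only [neg_mul, mul_neg, smul_mul_assoc, mul_smul_comm, Finset.sum_mul, Finset.mul_sum,
      smul_sub, Finset.sum_sub_distrib]
    abel
  rw [h2]
  have h3 : ∑ x, ∑ y, a x y •
      ((if y = v then -(Z x * Q v) else 0) + (if x = v then -(Q v * Z y) else 0)
        + (if x = v then Z v * Q y else 0) + (if y = v then Q x * Z v else 0))
      = ∑ x, a x v • (-(Z x * Q v) - Q v * Z x + Z v * Q x + Q x * Z v) := by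
    simp only [smul_add, Finset.sum_add_distrib, smul_ite, smul_zero, Finset.sum_ite_eq',
      Finset.mem_univ, if_true, smul_sub, Finset.sum_sub_distrib]
    have e2 : ∀ (f : V → R), ∑ x, ∑ y, (if x = v then a x y • f y else 0) = ∑ y, a y v • f y := by
      intro f
      rw [Finset.sum_comm]
      refine Finset.sum_congr rfl fun y _ => ?_
      simp only [Finset.sum_ite_eq', Finset.mem_univ, if_true]
      rw [ha v y]
    rw [e2 (fun y => -(Q v * Z y)), e2 (fun y => Z v * Q y)]
    simp only [smul_neg, Finset.sum_neg_distrib]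
    abel
  rw [h3, Finset.smul_sum, ← Finset.sum_neg_distrib]
  refine Finset.sum_congr rfl fun x _ => ?_
  by_cases hxv : x = v
  · subst hxv; simp [ha0]
  · have e3 : Q v * Z x = Z x * Q v := by
      have := hZQ x v
      rw [if_neg hxv, sub_eq_zero] at this
      exact this.symm
    have e4 : Z v * Q x = Q x * Z v := by
      have := hZQ v x
      rw [if_neg (Ne.symm hxv), sub_eq_zero] at this
      exact this
    rw [e3, e4]
    module

/-- second commutator -/
lemma comm_comm_exch (a : V → V → ℂ)
    (Z P Q : V → R)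
    (hZP : ∀ x y, Z x * P y - P y * Z x = if x = y then P y else 0)
    (hPQ : ∀ x y, P x * Q y - Q y * P x = if x = y then (2 : ℂ) • Z x else 0) (u v : V) :
    P u * (∑ x, a x v • (Z x * Q v - Q x * Z v)) - (∑ x, a x v • (Z x * Q v - Q x * Z v)) * P u
    = -(a u v • (P u * Q v + (2 : ℂ) • (Z u * Z v))) +
      (if u = v then ∑ x, a x v • ((2 : ℂ) • (Z x * Z v) + Q x * P v) else 0) := by
  have h1 : ∀ x, P u * (Z x * Q v - Q x * Z v) - (Z x * Q v - Q x * Z v) * P u
      = (if x = u then -(P u * Q v + (2 : ℂ) • (Z u * Z v)) else 0) +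
        (if u = v then (2 : ℂ) • (Z x * Z v) + Q x * P v else 0) := by
    intro x
    have hPZ : ∀ x y, P y * Z x - Z x * P y = if x = y then -P y else 0 := by
      intro x y
      rw [← neg_sub, hZP]
      split_ifs <;> simp
    have e1 : P u * (Z x * Q v - Q x * Z v) - (Z x * Q v - Q x * Z v) * P u
        = (P u * (Z x * Q v) - Z x * Q v * P u) - (P u * (Q x * Z v) - Q x * Z v * P u) := by
      noncomm_ring
    rw [e1, comm_mul_right (Z x) (Q v), comm_mul_right (Q x) (Z v), hPQ, hPQ, hPZ, hPZ]
    by_cases hxu : x = u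
    · by_cases huv : u = v
      · subst hxu; subst huv
        simp only [if_true]
        simp only [mul_neg, neg_mul, smul_mul_assoc, mul_smul_comm]
        abel
      · subst hxu
        simp only [if_neg huv, if_neg (Ne.symm huv), if_true]
        simp only [mul_neg, neg_mul, smul_mul_assoc, mul_smul_comm, mul_zero]
        abel
    · by_cases huv : u = v
      · subst huv
        simp only [if_neg hxu, if_neg (Ne.symm hxu), if_true]
        simp only [mul_neg, smul_mul_assoc, mul_smul_comm, zero_mul]
        abel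
      · simp [if_neg hxu, if_neg (Ne.symm hxu), if_neg huv, if_neg (Ne.symm huv)]
  have h2 : P u * (∑ x, a x v • (Z x * Q v - Q x * Z v)) -
      (∑ x, a x v • (Z x * Q v - Q x * Z v)) * P u
      = ∑ x, a x v • (P u * (Z x * Q v - Q x * Z v) - (Z x * Q v - Q x * Z v) * P u) := by
    rw [Finset.mul_sum, Finset.sum_mul, ← Finset.sum_sub_distrib]
    refine Finset.sum_congr rfl fun x _ => ?_
    rw [mul_smul_comm, smul_mul_assoc, smul_sub]
  rw [h2]
  simp_rw [h1]
  simp only [smul_add, Finset.sum_add_distrib, smul_ite, smul_zero, Finset.sum_ite_eq',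
      Finset.mem_univ, if_true, smul_neg]
  congr 1
  by_cases huv : u = v
  · simp only [if_pos huv, Finset.sum_add_distrib]
  · simp only [if_neg huv, Finset.sum_const_zero]

end Ring

end Vale.Agent.Lib.P361H29
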