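import Vale.Agent.Lib.P361H29.DoubleComm

set_option linter.unusedSimpArgs false

namespace Vale.Agent.Lib.P361H29

section Ring
variable {R : Type*} [Ring R] [Algebra ℂ R] {V : Type*} [Fintype V] [DecidableEq V]

omit [DecidableEq V] in
lemma sum_symm (c : V → V → ℂ) (hc : ∀ x y, c x y = c y x) (F : V → V → R) :
    ∑ u, ∑ v, c u v • F u v = ∑ u, ∑ v, c u v • F v u := by
  rw [Finset.sum_comm]
  refine Finset.sum_congr rfl fun u _ => Finset.sum_congr rfl fun v _ => ?_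
  rw [hc]

/-- The double commutator with weights `w`, `w'` (= conjugate of `w`). -/
lemma double_comm (a : V → V → ℂ) (ha : ∀ x y, a x y = a y x) (ha0 : ∀ x, a x x = 0)
    (Z P Q : V → R)
    (hZP : ∀ x y, Z x * P y - P y * Z x = if x = y then P y else 0)
    (hZQ : ∀ x y, Z x * Q y - Q y * Z x = if x = y then -Q y else 0)
    (hQQ : ∀ x y, Q x * Q y = Q y * Q x)
    (hPQ : ∀ x y, P x * Q y - Q y * P x = if x = y then (2 : ℂ) • Z x else 0)
    (w w' : V → ℂ) (hw : ∀ v, w' v * w v = 1) :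
    (∑ u, w' u • P u) * (exch a Z P Q * (∑ v, w v • Q v) - (∑ v, w v • Q v) * exch a Z P Q)
      - (exch a Z P Q * (∑ v, w v • Q v) - (∑ v, w v • Q v) * exch a Z P Q) * (∑ u, w' u • P u)
    = ∑ u, ∑ v, a u v • ((2 : ℂ) • (Z u * Z v) + Q u * P v)
      - ∑ u, ∑ v, (w' u * w v * a u v) • (Q v * P u + (2 : ℂ) • (Z u * Z v)) := by
  have h1 : exch a Z P Q * (∑ v, w v • Q v) - (∑ v, w v • Q v) * exch a Z P Q
      = ∑ v, w v • ∑ x, a x v • (Z x * Q v - Q x * Z v) := by
    rw [Finset.mul_sum, Finset.sum_mul, ← Finset.sum_sub_distrib]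
    refine Finset.sum_congr rfl fun v _ => ?_
    rw [mul_smul_comm, smul_mul_assoc, ← smul_sub, comm_exch a ha ha0 Z P Q hZQ hQQ hPQ]
  rw [h1]
  have h2 : (∑ u, w' u • P u) * (∑ v, w v • ∑ x, a x v • (Z x * Q v - Q x * Z v)) -
      (∑ v, w v • ∑ x, a x v • (Z x * Q v - Q x * Z v)) * (∑ u, w' u • P u)
      = ∑ u, ∑ v, (w' u * w v) • (-(a u v • (P u * Q v + (2 : ℂ) • (Z u * Z v))) +
      (if u = v then ∑ x, a x v • ((2 : ℂ) • (Z x * Z v) + Q x * P v) else 0)) := by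
    have h3 : ∀ u v, (w' u * w v) • (-(a u v • (P u * Q v + (2 : ℂ) • (Z u * Z v))) +
      (if u = v then ∑ x, a x v • ((2 : ℂ) • (Z x * Z v) + Q x * P v) else 0))
      = (w' u • P u) * (w v • ∑ x, a x v • (Z x * Q v - Q x * Z v)) -
        (w v • ∑ x, a x v • (Z x * Q v - Q x * Z v)) * (w' u • P u) := by
      intro u v
      rw [← comm_comm_exch a Z P Q hZP hPQ u v, smul_mul_smul_comm, smul_mul_smul_comm,
        mul_comm (w v) (w' u), smul_sub]
    simp_rw [h3]
    rw [Finset.sum_mul_sum, Finset.sum_mul_sum]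
    rw [Finset.sum_comm (f := fun i j => (w i • ∑ x, a x i • (Z x * Q i - Q x * Z i)) *
      (w' j • P j))]
    rw [← Finset.sum_sub_distrib]
    refine Finset.sum_congr rfl fun u _ => ?_
    rw [← Finset.sum_sub_distrib]
  rw [h2]
  have h4 : ∑ u, ∑ v, (w' u * w v) • (if u = v then
      ∑ x, a x v • ((2 : ℂ) • (Z x * Z v) + Q x * P v) else 0)
      = ∑ u, ∑ v, a u v • ((2 : ℂ) • (Z u * Z v) + Q u * P v) := by
    simp only [smul_ite, smul_zero, Finset.sum_ite_eq, Finset.mem_univ, if_true]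
    simp_rw [hw, one_smul]
    rw [Finset.sum_comm]
  have h5 : ∀ u v, (w' u * w v) • a u v • (P u * Q v + (2 : ℂ) • (Z u * Z v))
      = (w' u * w v * a u v) • (Q v * P u + (2 : ℂ) • (Z u * Z v)) := by
    intro u v
    by_cases huv : u = v
    · subst huv; simp [ha0]
    · have := hPQ u v
      rw [if_neg huv, sub_eq_zero] at this
      rw [this, smul_smul]
  rw [← h4, ← Finset.sum_sub_distrib]
  refine Finset.sum_congr rfl fun u _ => ?_
  rw [← Finset.sum_sub_distrib]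
  refine Finset.sum_congr rfl fun v _ => ?_
  rw [← h5, smul_add, smul_neg]
  abel

/-- Sum of the double commutators for `w` and its conjugate. -/
lemma double_comm_sum (a : V → V → ℂ) (ha : ∀ x y, a x y = a y x) (ha0 : ∀ x, a x x = 0)
    (Z P Q : V → R)
    (hZZ : ∀ x y, Z x * Z y = Z y * Z x)
    (hZP : ∀ x y, Z x * P y - P y * Z x = if x = y then P y else 0)
    (hZQ : ∀ x y, Z x * Q y - Q y * Z x = if x = y then -Q y else 0)
    (hQQ : ∀ x y, Q x * Q y = Q y * Q x)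
    (hPQ : ∀ x y, P x * Q y - Q y * P x = if x = y then (2 : ℂ) • Z x else 0)
    (w w' : V → ℂ) (hw : ∀ v, w' v * w v = 1) (C : V → V → ℂ)
    (hC : ∀ u v, w' u * w v + w u * w' v = 2 * C u v) :
    ((∑ u, w' u • P u) * (exch a Z P Q * (∑ v, w v • Q v) - (∑ v, w v • Q v) * exch a Z P Q)
      - (exch a Z P Q * (∑ v, w v • Q v) - (∑ v, w v • Q v) * exch a Z P Q) * (∑ u, w' u • P u))
    + ((∑ u, w u • P u) * (exch a Z P Q * (∑ v, w' v • Q v) - (∑ v, w' v • Q v) * exch a Z P Q)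
      - (exch a Z P Q * (∑ v, w' v • Q v) - (∑ v, w' v • Q v) * exch a Z P Q) * (∑ u, w u • P u))
    = ∑ u, ∑ v, ((1 - C u v) * a u v) • ((4 : ℂ) • (Z u * Z v) + Q u * P v + Q v * P u) := by
  rw [double_comm a ha ha0 Z P Q hZP hZQ hQQ hPQ w w' hw,
    double_comm a ha ha0 Z P Q hZP hZQ hQQ hPQ w' w (fun v => by rw [mul_comm]; exact hw v)]
  have hCs : ∀ u v, C u v = C v u := by
    intro u v
    have h1 := hC u v
    have h2 := hC v u
    have : (2 : ℂ) * C u v = 2 * C v u := by rw [← h1, ← h2]; ring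
    exact mul_left_cancel₀ (by norm_num) this
  have e1 : ∑ u, ∑ v, (w' u * w v * a u v) • (Q v * P u + (2 : ℂ) • (Z u * Z v)) +
      ∑ u, ∑ v, (w u * w' v * a u v) • (Q v * P u + (2 : ℂ) • (Z u * Z v))
      = ∑ u, ∑ v, (C u v * a u v) • ((4 : ℂ) • (Z u * Z v) + Q u * P v + Q v * P u) := by
    have e2 : ∑ u, ∑ v, (C u v * a u v) • ((4 : ℂ) • (Z u * Z v) + Q u * P v + Q v * P u)
        = ∑ u, ∑ v, (C u v * a u v) • ((4 : ℂ) • (Z u * Z v) + Q v * P u) +
          ∑ u, ∑ v, (C u v * a u v) • (Q v * P u) := by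
      rw [sum_symm (fun u v => C u v * a u v) (fun u v => by rw [hCs, ha]) (fun u v => Q v * P u)]
      rw [← Finset.sum_add_distrib]
      refine Finset.sum_congr rfl fun u _ => ?_
      rw [← Finset.sum_add_distrib]
      refine Finset.sum_congr rfl fun v _ => ?_
      module
    rw [e2]
    rw [← Finset.sum_add_distrib, ← Finset.sum_add_distrib]
    refine Finset.sum_congr rfl fun u _ => ?_
    rw [← Finset.sum_add_distrib, ← Finset.sum_add_distrib]
    refine Finset.sum_congr rfl fun v _ => ?_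
    rw [← add_smul, ← add_mul, hC]
    module
  have e3 : ∑ u, ∑ v, a u v • ((2 : ℂ) • (Z u * Z v) + Q u * P v) +
      ∑ u, ∑ v, a u v • ((2 : ℂ) • (Z u * Z v) + Q u * P v)
      = ∑ u, ∑ v, (a u v) • ((4 : ℂ) • (Z u * Z v) + Q u * P v + Q v * P u) := by
    conv_lhs => rw [sum_symm a ha (fun u v => ((2 : ℂ) • (Z u * Z v) + Q u * P v))]
    rw [show ∑ u, ∑ v, a u v • ((2 : ℂ) • (Z v * Z u) + Q v * P u) +
      ∑ u, ∑ v, a u v • ((2 : ℂ) • (Z v * Z u) + Q v * P u)
      = ∑ u, ∑ v, a u v • ((2 : ℂ) • (Z v * Z u) + Q v * P u) +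
      ∑ u, ∑ v, a u v • ((2 : ℂ) • (Z u * Z v) + Q u * P v) from by
        congr 1
        rw [sum_symm a ha (fun u v => ((2 : ℂ) • (Z v * Z u) + Q v * P u))]]
    rw [← Finset.sum_add_distrib]
    refine Finset.sum_congr rfl fun u _ => ?_
    rw [← Finset.sum_add_distrib]
    refine Finset.sum_congr rfl fun v _ => ?_
    rw [hZZ v u]
    module
  calc _ = (∑ u, ∑ v, a u v • ((2 : ℂ) • (Z u * Z v) + Q u * P v) +
        ∑ u, ∑ v, a u v • ((2 : ℂ) • (Z u * Z v) + Q u * P v)) -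
        (∑ u, ∑ v, (w' u * w v * a u v) • (Q v * P u + (2 : ℂ) • (Z u * Z v)) +
      ∑ u, ∑ v, (w u * w' v * a u v) • (Q v * P u + (2 : ℂ) • (Z u * Z v))) := by abel
    _ = _ := by
        rw [e1, e3, ← Finset.sum_sub_distrib]
        refine Finset.sum_congr rfl fun u _ => ?_
        rw [← Finset.sum_sub_distrib]
        refine Finset.sum_congr rfl fun v _ => ?_
        rw [← sub_smul]
        congr 1; ring

end Ring

end Vale.Agent.Lib.P361H29
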