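import Vale.Agent.Lib.P361H29.Thermo3

set_option linter.unusedSimpArgs false

open Matrix Filter Topology

namespace Vale.Agent.Lib.P361H29

/-- trivial graph with one vertex -/
def noAdj : Unit → Unit → Prop := fun _ _ => False

instance : DecidableRel noAdj := fun _ _ => by unfold noAdj; infer_instance

lemma noAdj_symm : ∀ x y, noAdj x y → noAdj y x := fun _ _ h => h
lemma noAdj_irrefl : ∀ x, ¬ noAdj x x := fun _ h => h

/-- `log Z` of a rectangular box -/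
noncomputable def GG (n : ℕ) (β h : ℝ) (a b c : ℕ) : ℝ :=
  logZ n (slab a (slab b (slab c noAdj))) β h

variable {n : ℕ}

lemma GG_swap12 (β h : ℝ) (a b c : ℕ) : GG n β h a b c = GG n β h b a c :=
  slab_swap (slab c noAdj) a b β h

lemma GG_swap23 (β h : ℝ) (a b c : ℕ) : GG n β h a b c = GG n β h a c b := by
  unfold GG
  apply slab_congr (slab b (slab c noAdj)) (slab c (slab b noAdj)) (swapEquiv b c Unit)
  rintro ⟨i, j, w⟩ ⟨i', j', w'⟩
  simp only [slab, swapEquiv, Equiv.coe_fn_mk, Prod.mk.injEq]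
  tauto

lemma GG_mul (β h : ℝ) (hβ : 0 < β) (a b c k : ℕ) (hk : 1 ≤ k) :
    |GG n β h (k * a) b c - (k : ℝ) * GG n β h a b c| ≤ (k : ℝ) * ((2 * β * (n : ℝ) ^ 2) * (b * c)) := by
  obtain ⟨k, rfl⟩ : ∃ k', k = k' + 1 := ⟨k - 1, by omega⟩
  have h1 := slab_mul (n := n) (slab b (slab c noAdj))
    (slab_symm b _ (slab_symm c _ noAdj_symm)) (slab_irrefl b _ (slab_irrefl c _ noAdj_irrefl))
    a k β h hβ
  have hc : (Fintype.card (Fin b × (Fin c × Unit)) : ℝ) = b * c := by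
    simp
  rw [hc] at h1
  refine h1.trans ?_
  push_cast
  have : 0 ≤ (2 * β * (n : ℝ) ^ 2) * ((b : ℝ) * c) := by positivity
  nlinarith

lemma GG_cube (β h : ℝ) (hβ : 0 < β) (l k : ℕ) (hk : 1 ≤ k) :
    |GG n β h (k * l) (k * l) (k * l) - (k : ℝ) ^ 3 * GG n β h l l l|
      ≤ 3 * (k : ℝ) ^ 3 * (l : ℝ) ^ 2 * (2 * β * (n : ℝ) ^ 2) := by
  have s1 := GG_mul (n := n) β h hβ l (k * l) (k * l) k hk
  have s2 := GG_mul (n := n) β h hβ l l (k * l) k hk
  have s3 := GG_mul (n := n) β h hβ l l l k hk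
  rw [GG_swap12 β h (k * l) l (k * l)] at s2
  rw [GG_swap12 β h (k * l) l l, GG_swap23 β h l (k * l) l] at s3
  set D := 2 * β * (n : ℝ) ^ 2 with hD
  have hD0 : 0 ≤ D := by positivity
  have hk0 : (0 : ℝ) ≤ k := by positivity
  have e : GG n β h (k * l) (k * l) (k * l) - (k : ℝ) ^ 3 * GG n β h l l l
      = (GG n β h (k * l) (k * l) (k * l) - (k : ℝ) * GG n β h l (k * l) (k * l)) +
        (k : ℝ) * (GG n β h l (k * l) (k * l) - (k : ℝ) * GG n β h l l (k * l)) +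
        (k : ℝ) ^ 2 * (GG n β h l l (k * l) - (k : ℝ) * GG n β h l l l) := by ring
  rw [e]
  refine (abs_add_le _ _).trans ((add_le_add_left (abs_add_le _ _) _).trans ?_)
  rw [abs_mul, abs_mul, abs_of_nonneg hk0, abs_of_nonneg (sq_nonneg (k : ℝ))]
  have t2 := mul_le_mul_of_nonneg_left s2 hk0
  have t3 := mul_le_mul_of_nonneg_left s3 (sq_nonneg (k : ℝ))
  push_cast at s1 t2 t3
  calc _ ≤ (k : ℝ) * (D * (k * l * (k * l))) + (k : ℝ) * ((k : ℝ) * (D * (l * (k * l)))) +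
        (k : ℝ) ^ 2 * ((k : ℝ) * (D * (l * l))) := by linarith
    _ = _ := by ring

/-- normalized -/
noncomputable def gg (n : ℕ) (β h : ℝ) (l : ℕ) : ℝ := GG n β h l l l / (l : ℝ) ^ 3

lemma gg_mul (β h : ℝ) (hβ : 0 < β) (l k : ℕ) (hk : 1 ≤ k) (hl : 1 ≤ l) :
    |gg n β h (k * l) - gg n β h l| ≤ 6 * β * (n : ℝ) ^ 2 / l := by
  have h1 := GG_cube (n := n) β h hβ l k hk
  have hk0 : (0 : ℝ) < k := by exact_mod_cast hk
  have hl0 : (0 : ℝ) < l := by exact_mod_cast hl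
  have e : gg n β h (k * l) - gg n β h l =
      (GG n β h (k * l) (k * l) (k * l) - (k : ℝ) ^ 3 * GG n β h l l l) / ((k : ℝ) ^ 3 * (l : ℝ) ^ 3) := by
    unfold gg
    push_cast
    field_simp
  rw [e, abs_div, abs_of_pos (by positivity : (0 : ℝ) < (k : ℝ) ^ 3 * (l : ℝ) ^ 3),
    div_le_iff₀ (by positivity)]
  refine h1.trans (le_of_eq ?_)
  field_simp
  ring

lemma gg_cauchy (β h : ℝ) (hβ : 0 < β) (l m : ℕ) (hl : 1 ≤ l) (hm : 1 ≤ m) :
    |gg n β h l - gg n β h m| ≤ 6 * β * (n : ℝ) ^ 2 / l + 6 * β * (n : ℝ) ^ 2 / m := by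
  have h1 := gg_mul (n := n) β h hβ l m hm hl
  have h2 := gg_mul (n := n) β h hβ m l hl hm
  rw [mul_comm l m] at h2
  have e : gg n β h l - gg n β h m = -(gg n β h (m * l) - gg n β h l) +
    (gg n β h (m * l) - gg n β h m) := by ring
  rw [e]
  refine (abs_add_le _ _).trans ?_
  rw [abs_neg]
  linarith

/-- coordinates of the interval -/
def icoEquiv (N : ℕ) : ↥(Finset.Icc (-(N : ℤ)) (N : ℤ)) ≃ Fin (2 * N + 1) where
  toFun z := ⟨((z : ℤ) + N).toNat, by
    have := z.2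
    rw [Finset.mem_Icc] at this
    omega⟩
  invFun j := ⟨(j : ℤ) - N, by
    have := j.2
    rw [Finset.mem_Icc]
    omega⟩
  left_inv z := by
    have := z.2
    rw [Finset.mem_Icc] at this
    ext
    simp only
    omega
  right_inv j := by
    ext
    simp

lemma icoEquiv_val (N : ℕ) (z : ↥(Finset.Icc (-(N : ℤ)) (N : ℤ))) :
    (((icoEquiv N z : Fin (2 * N + 1)) : ℕ) : ℤ) = (z : ℤ) + N := by
  have := z.2
  rw [Finset.mem_Icc] at this
  simp only [icoEquiv, Equiv.coe_fn_mk]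
  omega

/-- the box as an iterated product -/
def boxEquiv (N : ℕ) : Box N ≃ Fin (2 * N + 1) × (Fin (2 * N + 1) × (Fin (2 * N + 1) × Unit)) where
  toFun v := (icoEquiv N (v 0), (icoEquiv N (v 1), (icoEquiv N (v 2), ())))
  invFun p := ![(icoEquiv N).symm p.1, (icoEquiv N).symm p.2.1, (icoEquiv N).symm p.2.2.1]
  left_inv v := by
    ext i
    fin_cases i <;> simp
  right_inv p := by
    obtain ⟨a, b, c, ⟨⟩⟩ := p
    simp

lemma box_adj_iff (N : ℕ) (x y : Box N) :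
    boxAdj N x y ↔ slab (2 * N + 1) (slab (2 * N + 1) (slab (2 * N + 1) noAdj))
      (boxEquiv N x) (boxEquiv N y) := by
  have x0 := icoEquiv_val N (x 0)
  have x1 := icoEquiv_val N (x 1)
  have x2 := icoEquiv_val N (x 2)
  have y0 := icoEquiv_val N (y 0)
  have y1 := icoEquiv_val N (y 1)
  have y2 := icoEquiv_val N (y 2)
  unfold boxAdj
  rw [Fin.sum_univ_three, Int.abs_eq_natAbs, Int.abs_eq_natAbs, Int.abs_eq_natAbs]
  simp only [slab, boxEquiv, Equiv.coe_fn_mk, noAdj, and_false, or_false, Prod.mk.injEq, and_true,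
    Fin.ext_iff]
  generalize ((icoEquiv N (x 0) : Fin (2 * N + 1)) : ℕ) = a0 at *
  generalize ((icoEquiv N (x 1) : Fin (2 * N + 1)) : ℕ) = a1 at *
  generalize ((icoEquiv N (x 2) : Fin (2 * N + 1)) : ℕ) = a2 at *
  generalize ((icoEquiv N (y 0) : Fin (2 * N + 1)) : ℕ) = b0 at *
  generalize ((icoEquiv N (y 1) : Fin (2 * N + 1)) : ℕ) = b1 at *
  generalize ((icoEquiv N (y 2) : Fin (2 * N + 1)) : ℕ) = b2 at *
  omega

lemma card_box' (N : ℕ) : Fintype.card (Box N) = (2 * N + 1) ^ 3 := by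
  rw [Fintype.card_pi]
  simp only [Fintype.card_coe, Int.card_Icc, Finset.prod_const, Finset.card_univ, Fintype.card_fin]
  congr 1
  omega

lemma graphPressure_eq (N : ℕ) (β h : ℝ) :
    graphPressure n (boxAdj N) β h = β⁻¹ * gg n β h (2 * N + 1) := by
  have h1 : logZ n (boxAdj N) β h = GG n β h (2 * N + 1) (2 * N + 1) (2 * N + 1) :=
    logZ_equiv (boxEquiv N) _ _ (box_adj_iff N) β h
  unfold graphPressure
  change (β * (Fintype.card (Box N) : ℝ))⁻¹ * logZ n (boxAdj N) β h = _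
  rw [h1, card_box', gg]
  push_cast
  rw [mul_inv, div_eq_mul_inv]
  ring

/-- existence of the thermodynamic limit -/
theorem exists_limit (n : ℕ) (β h : ℝ) (hβ : 0 < β) :
    ∃ p, Tendsto (fun N : ℕ => graphPressure n (boxAdj N) β h) atTop (𝓝 p) := by
  have hc : CauchySeq (fun N : ℕ => gg n β h (2 * N + 1)) := by
    apply cauchySeq_of_le_tendsto_0 (fun K : ℕ => 12 * β * (n : ℝ) ^ 2 / ((2 * K + 1 : ℕ) : ℝ))
    · intro N M K hN hM
      rw [Real.dist_eq]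
      refine (gg_cauchy β h hβ (2 * N + 1) (2 * M + 1) (by omega) (by omega)).trans ?_
      have hKN : ((2 * K + 1 : ℕ) : ℝ) ≤ ((2 * N + 1 : ℕ) : ℝ) := by
        exact_mod_cast (by omega : 2 * K + 1 ≤ 2 * N + 1)
      have hKM : ((2 * K + 1 : ℕ) : ℝ) ≤ ((2 * M + 1 : ℕ) : ℝ) := by
        exact_mod_cast (by omega : 2 * K + 1 ≤ 2 * M + 1)
      have hK0 : (0 : ℝ) < ((2 * K + 1 : ℕ) : ℝ) := by positivity
      have hnum : 0 ≤ 6 * β * (n : ℝ) ^ 2 := by positivity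
      have h1 := div_le_div_of_nonneg_left hnum hK0 hKN
      have h2 := div_le_div_of_nonneg_left hnum hK0 hKM
      calc _ ≤ 6 * β * (n : ℝ) ^ 2 / ((2 * K + 1 : ℕ) : ℝ) +
            6 * β * (n : ℝ) ^ 2 / ((2 * K + 1 : ℕ) : ℝ) := add_le_add h1 h2
        _ = _ := by ring
    · have h3 : Tendsto (fun N : ℕ => 2 * N + 1) atTop atTop := by
        apply tendsto_atTop_mono (fun N => (by omega : N ≤ 2 * N + 1)) tendsto_id
      exact (tendsto_const_div_atTop_nhds_zero_nat (12 * β * (n : ℝ) ^ 2)).comp h3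
  obtain ⟨p, hp⟩ := cauchySeq_tendsto_of_complete hc
  refine ⟨β⁻¹ * p, ?_⟩
  simp_rw [graphPressure_eq]
  exact hp.const_mul _

end Vale.Agent.Lib.P361H29
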