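import Vale.Agent.Lib.P361H29.Asymp
import Vale.Agent.Lib.P361H29.Thermo4

set_option linter.unusedSimpArgs false

open Matrix Filter Topology

namespace Vale.Agent.Lib.P361H29

theorem pressure_tendsto (n : ℕ) (β h : ℝ) (hβ : 0 < β) :
    Tendsto (fun N : ℕ => graphPressure n (boxAdj N) β h) atTop (𝓝 (pressure n β h)) :=
  tendsto_nhds_limUnder (exists_limit n β h hβ)

/-- convexity of the finite volume pressure -/
lemma graphPressure_convex (n N : ℕ) (β : ℝ) (hβ : 0 < β) :
    ConvexOn ℝ Set.univ (graphPressure n (boxAdj N) β) := by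
  have hne : Nonempty (Box N) := ⟨fun _ => ⟨0, by simp⟩⟩
  refine ⟨convex_univ, fun x _ y _ a b ha hb hab => ?_⟩
  simp only [smul_eq_mul]
  set z := a * x + b * y with hz
  have h1 := pressure_diff n (boxAdj N) (boxAdj_symm N) (boxAdj_irrefl N) β hβ x z
  have h2 := pressure_diff n (boxAdj N) (boxAdj_symm N) (boxAdj_irrefl N) β hβ y z
  set s := ev (NormedSpace.exp (-(β : ℂ) • (heisenberg n (boxAdj N) - (z : ℂ) •
    totalSpin n (Box N)))) (totalSpin n (Box N)) / ((Fintype.card (Box N) : ℝ) *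
      ev (NormedSpace.exp (-(β : ℂ) • (heisenberg n (boxAdj N) - (z : ℂ) •
        totalSpin n (Box N)))) 1) with hs
  have h3 := mul_le_mul_of_nonneg_left h1 ha
  have h4 := mul_le_mul_of_nonneg_left h2 hb
  have h5 : a * ((x - z) * s) + b * ((y - z) * s) = 0 := by
    have : a * (x - z) + b * (y - z) = 0 := by
      have hb' : b = 1 - a := by linarith
      rw [hz, hb']; ring
    calc a * ((x - z) * s) + b * ((y - z) * s) = (a * (x - z) + b * (y - z)) * s := by ring
      _ = 0 := by rw [this, zero_mul]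
  have h6 : a * graphPressure n (boxAdj N) β z + b * graphPressure n (boxAdj N) β z
      = graphPressure n (boxAdj N) β z := by rw [← add_mul, hab, one_mul]
  nlinarith

lemma pressure_convex (n : ℕ) (β : ℝ) (hβ : 0 < β) : ConvexOn ℝ Set.univ (pressure n β) := by
  refine ⟨convex_univ, fun x _ y _ a b ha hb hab => ?_⟩
  have hx := (pressure_tendsto n β x hβ).const_mul a
  have hy := (pressure_tendsto n β y hβ).const_mul b
  refine le_of_tendsto_of_tendsto' (pressure_tendsto n β (a • x + b • y) hβ) (hx.add hy) fun N => ?_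
  exact (graphPressure_convex n N β hβ).2 (Set.mem_univ x) (Set.mem_univ y) ha hb hab

theorem magnetization_hasDeriv (n : ℕ) (β : ℝ) (hβ : 0 < β) :
    HasDerivWithinAt (pressure n β) (magnetization n β) (Set.Ioi 0) 0 :=
  (pressure_convex n β hβ).hasDerivWithinAt_rightDeriv_of_mem_interior (by simp)

theorem magnetization_le (n J : ℕ) (hn : 1 ≤ n) (β τ : ℝ) (hβ : 0 < β) (hτ0 : 0 < τ)
    (hτ1 : τ < 1) : magnetization n β ≤ limBound n J β 0 τ :=
  deriv_bound n J hn β τ hβ hτ0 hτ1 (pressure n β) (magnetization n β)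
    (fun h => pressure_tendsto n β h hβ) (magnetization_hasDeriv n β hβ)

theorem main (n : ℕ) (hn : 1 ≤ n) (c : ℝ) (hc : c < blochConst n) :
    ∀ᶠ β : ℝ in atTop, c < β ^ (3 / 2 : ℝ) * ((n : ℝ) / 2 - magnetization n β) :=
  asymp n hn (magnetization n) (fun β hβ J τ hτ0 hτ1 => magnetization_le n J hn β τ hβ hτ0 hτ1) c hc

end Vale.Agent.Lib.P361H29
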