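import Vale.Agent.Lib.P361H29.Defs

open Matrix

namespace Vale.Agent.Lib.P361H29

section Site
variable {V : Type*} [Fintype V] [DecidableEq V] {n : ℕ}

lemma siteOp_mul (x : V) (A B : Matrix (Fin (n + 1)) (Fin (n + 1)) ℂ) :
    siteOp x A * siteOp x B = siteOp x (A * B) := by
  ext σ τ
  rw [Matrix.mul_apply]
  simp only [siteOp]
  by_cases h : ∀ z, z ≠ x → σ z = τ z
  · rw [if_pos h, Matrix.mul_apply]
    -- intermediate configurations: update σ x s
    have hinj : Function.Injective (fun s : Fin (n + 1) => Function.update σ x s) := by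
      intro s t hst
      have := congrFun hst x
      simpa using this
    rw [← Finset.sum_subset (Finset.subset_univ (Finset.univ.image
      (fun s : Fin (n + 1) => Function.update σ x s)))]
    · rw [Finset.sum_image (fun s _ t _ hst => hinj hst)]
      refine Finset.sum_congr rfl fun s _ => ?_
      rw [if_pos (by intro z hz; rw [Function.update_of_ne hz]),
        if_pos (by intro z hz; rw [Function.update_of_ne hz]; exact h z hz)]
      simp
    · intro ρ _ hρ
      have : ¬ ∀ z, z ≠ x → σ z = ρ z := by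
        intro hc
        apply hρ
        simp only [Finset.mem_image, Finset.mem_univ, true_and]
        refine ⟨ρ x, ?_⟩
        ext z
        by_cases hz : z = x
        · subst hz; simp
        · rw [Function.update_of_ne hz, hc z hz]
      rw [if_neg this, zero_mul]
  · rw [if_neg h]
    refine Finset.sum_eq_zero fun ρ _ => ?_
    by_cases h1 : ∀ z, z ≠ x → σ z = ρ z
    · by_cases h2 : ∀ z, z ≠ x → ρ z = τ z
      · exact absurd (fun z hz => (h1 z hz).trans (h2 z hz)) h
      · rw [if_neg h2, mul_zero]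
    · rw [if_neg h1, zero_mul]

/-- product of two operators at different sites -/
lemma siteOp_mul_ne_apply {x y : V} (hxy : x ≠ y) (A B : Matrix (Fin (n + 1)) (Fin (n + 1)) ℂ)
    (σ τ : V → Fin (n + 1)) :
    (siteOp x A * siteOp y B) σ τ =
      if ∀ z, z ≠ x → z ≠ y → σ z = τ z then A (σ x) (τ x) * B (σ y) (τ y) else 0 := by
  rw [Matrix.mul_apply]
  simp only [siteOp]
  by_cases h : ∀ z, z ≠ x → z ≠ y → σ z = τ z
  · rw [if_pos h]
    rw [Finset.sum_eq_single (Function.update σ x (τ x))]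
    · rw [if_pos (by intro z hz; rw [Function.update_of_ne hz]), if_pos]
      · rw [Function.update_self, Function.update_of_ne hxy.symm]
      · intro z hz
        by_cases hzx : z = x
        · subst hzx; simp
        · rw [Function.update_of_ne hzx]; exact h z hzx hz
    · intro ρ _ hρ
      by_cases h1 : ∀ z, z ≠ x → σ z = ρ z
      · by_cases h2 : ∀ z, z ≠ y → ρ z = τ z
        · exfalso
          apply hρ
          ext z
          by_cases hz : z = x
          · subst hz; rw [Function.update_self, h2 z hxy]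
          · rw [Function.update_of_ne hz, h1 z hz]
        · rw [if_neg h2, mul_zero]
      · rw [if_neg h1, zero_mul]
    · intro h; exact absurd (Finset.mem_univ _) h
  · rw [if_neg h]
    refine Finset.sum_eq_zero fun ρ _ => ?_
    by_cases h1 : ∀ z, z ≠ x → σ z = ρ z
    · by_cases h2 : ∀ z, z ≠ y → ρ z = τ z
      · exact absurd (fun z hz hz' => (h1 z hz).trans (h2 z hz')) h
      · rw [if_neg h2, mul_zero]
    · rw [if_neg h1, zero_mul]

lemma siteOp_comm {x y : V} (hxy : x ≠ y) (A B : Matrix (Fin (n + 1)) (Fin (n + 1)) ℂ) :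
    siteOp x A * siteOp y B = siteOp y B * siteOp x A := by
  ext σ τ
  rw [siteOp_mul_ne_apply hxy, siteOp_mul_ne_apply hxy.symm]
  have : (∀ z, z ≠ x → z ≠ y → σ z = τ z) ↔ (∀ z, z ≠ y → z ≠ x → σ z = τ z) :=
    ⟨fun h z h1 h2 => h z h2 h1, fun h z h1 h2 => h z h2 h1⟩
  by_cases h : ∀ z, z ≠ x → z ≠ y → σ z = τ z
  · rw [if_pos h, if_pos (this.mp h), mul_comm]
  · rw [if_neg h, if_neg (fun h' => h (this.mpr h'))]

lemma siteOp_add (x : V) (A B : Matrix (Fin (n + 1)) (Fin (n + 1)) ℂ) :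
    siteOp x (A + B) = siteOp x A + siteOp x B := by
  ext σ τ
  simp only [siteOp, Matrix.add_apply]
  split_ifs <;> simp

lemma siteOp_sub (x : V) (A B : Matrix (Fin (n + 1)) (Fin (n + 1)) ℂ) :
    siteOp x (A - B) = siteOp x A - siteOp x B := by
  ext σ τ
  simp only [siteOp, Matrix.sub_apply]
  split_ifs <;> simp

lemma siteOp_smul (x : V) (c : ℂ) (A : Matrix (Fin (n + 1)) (Fin (n + 1)) ℂ) :
    siteOp x (c • A) = c • siteOp x A := by
  ext σ τ
  simp only [siteOp, Matrix.smul_apply]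
  split_ifs <;> simp

lemma siteOp_conjTranspose (x : V) (A : Matrix (Fin (n + 1)) (Fin (n + 1)) ℂ) :
    (siteOp x A)ᴴ = siteOp x Aᴴ := by
  ext σ τ
  simp only [siteOp, Matrix.conjTranspose_apply]
  by_cases h : ∀ z, z ≠ x → σ z = τ z
  · rw [if_pos h, if_pos (fun z hz => (h z hz).symm)]
  · rw [if_neg h, if_neg (fun h' => h (fun z hz => (h' z hz).symm))]
    simp

lemma siteOp_diagonal (x : V) (d : Fin (n + 1) → ℂ) :
    siteOp x (Matrix.diagonal d) = Matrix.diagonal (fun σ : V → Fin (n + 1) => d (σ x)) := by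
  ext σ τ
  simp only [siteOp]
  by_cases h : σ = τ
  · subst h; simp
  · rw [Matrix.diagonal_apply_ne _ h]
    by_cases h1 : ∀ z, z ≠ x → σ z = τ z
    · rw [if_pos h1, Matrix.diagonal_apply_ne]
      intro h2
      apply h
      ext z
      by_cases hz : z = x
      · subst hz; rw [h2]
      · rw [h1 z hz]
    · rw [if_neg h1]

end Site

section OneSite
variable (n : ℕ)

lemma spinZ_isHermitian : (spinZ n)ᴴ = spinZ n := by
  rw [spinZ, Matrix.diagonal_conjTranspose]
  congr 1
  ext k
  simp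

/-- `S⁻ S⁺ = k (n + 1 - k)` -/
lemma minus_mul_plus : (spinPlus n)ᴴ * spinPlus n =
    Matrix.diagonal (fun k : Fin (n + 1) => (((k : ℕ) : ℂ) * ((n : ℂ) + 1 - ((k : ℕ) : ℂ)))) := by
  ext i j
  rw [Matrix.mul_apply]
  simp only [Matrix.conjTranspose_apply, spinPlus]
  by_cases hij : i = j
  · subst hij
    rw [Matrix.diagonal_apply_eq]
    by_cases h0 : (i : ℕ) = 0
    · have : ∀ k : Fin (n + 1), ¬ ((k : ℕ) + 1 = (i : ℕ)) := by intro k; omega
      rw [Finset.sum_eq_zero (fun k _ => by rw [if_neg (this k)]; simp), h0]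
      simp
    · have hlt : (i : ℕ) - 1 < n + 1 := by have := i.2; omega
      rw [Finset.sum_eq_single (⟨(i : ℕ) - 1, hlt⟩ : Fin (n + 1))]
      · have h1 : ((⟨(i : ℕ) - 1, hlt⟩ : Fin (n + 1)) : ℕ) + 1 = (i : ℕ) := by
          simp; omega
        rw [if_pos h1, Complex.star_def, Complex.conj_ofReal, ← Complex.ofReal_mul,
          Real.mul_self_sqrt]
        · push_cast; ring
        · have : ((i : ℕ) : ℝ) ≤ n := by exact_mod_cast Nat.lt_succ_iff.mp i.2
          have h0 : (0 : ℝ) ≤ ((i : ℕ) : ℝ) := by positivity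
          nlinarith
      · intro k _ hk
        have : ¬ ((k : ℕ) + 1 = (i : ℕ)) := by
          intro h; apply hk; ext; simp; omega
        rw [if_neg this]; simp
      · intro h; exact absurd (Finset.mem_univ _) h
  · rw [Matrix.diagonal_apply_ne _ hij]
    refine Finset.sum_eq_zero fun k _ => ?_
    by_cases h1 : (k : ℕ) + 1 = (i : ℕ)
    · have h2 : ¬ ((k : ℕ) + 1 = (j : ℕ)) := by
        intro h; apply hij; ext; omega
      rw [if_neg h2, mul_zero]
    · rw [if_neg h1]; simp

/-- `S⁺ S⁻ = (k + 1) (n - k)` -/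
lemma plus_mul_minus : spinPlus n * (spinPlus n)ᴴ =
    Matrix.diagonal (fun k : Fin (n + 1) => ((((k : ℕ) : ℂ) + 1) * ((n : ℂ) - ((k : ℕ) : ℂ)))) := by
  ext i j
  rw [Matrix.mul_apply]
  simp only [Matrix.conjTranspose_apply, spinPlus]
  by_cases hij : i = j
  · subst hij
    rw [Matrix.diagonal_apply_eq]
    by_cases h0 : (i : ℕ) = n
    · have : ∀ k : Fin (n + 1), ¬ ((i : ℕ) + 1 = (k : ℕ)) := by intro k; have := k.2; omega
      rw [Finset.sum_eq_zero (fun k _ => by rw [if_neg (this k)]; simp), h0]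
      simp
    · have hlt : (i : ℕ) + 1 < n + 1 := by have := i.2; omega
      rw [Finset.sum_eq_single (⟨(i : ℕ) + 1, hlt⟩ : Fin (n + 1))]
      · rw [if_pos rfl, Complex.star_def, Complex.conj_ofReal, ← Complex.ofReal_mul,
          Real.mul_self_sqrt]
        · push_cast; ring
        · have : (((i : ℕ) + 1 : ℕ) : ℝ) ≤ n := by exact_mod_cast Nat.lt_succ_iff.mp hlt
          simp only
          have h0 : (0 : ℝ) ≤ (((i : ℕ) + 1 : ℕ) : ℝ) := by positivity
          apply mul_nonneg h0
          linarith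
      · intro k _ hk
        have : ¬ ((i : ℕ) + 1 = (k : ℕ)) := by
          intro h; apply hk; ext; simp; omega
        rw [if_neg this]; simp
      · intro h; exact absurd (Finset.mem_univ _) h
  · rw [Matrix.diagonal_apply_ne _ hij]
    refine Finset.sum_eq_zero fun k _ => ?_
    by_cases h1 : (i : ℕ) + 1 = (k : ℕ)
    · have h2 : ¬ ((j : ℕ) + 1 = (k : ℕ)) := by
        intro h; apply hij; ext; omega
      rw [if_neg h2]; simp
    · rw [if_neg h1]; simp

/-- `[S⁺, S⁻] = 2 S³` -/
lemma comm_plus_minus : spinPlus n * (spinPlus n)ᴴ - (spinPlus n)ᴴ * spinPlus n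
    = (2 : ℂ) • spinZ n := by
  rw [plus_mul_minus, minus_mul_plus, spinZ, Matrix.diagonal_sub, ← Matrix.diagonal_smul]
  congr 1
  ext k
  simp only [Pi.smul_apply, smul_eq_mul]
  ring

/-- `[S³, S⁺] = S⁺` -/
lemma comm_Z_plus : spinZ n * spinPlus n - spinPlus n * spinZ n = spinPlus n := by
  ext i j
  rw [Matrix.sub_apply, spinZ, Matrix.diagonal_mul, Matrix.mul_diagonal]
  simp only [spinPlus]
  split_ifs with h
  · rw [← h]; push_cast; ring
  · ring

/-- `∑_a S^a ⊗ S^a` in terms of ladder matrices -/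
lemma sum_spin_siteOp {V : Type*} [Fintype V] [DecidableEq V] (x y : V) :
    ∑ a : Fin 3, siteOp x (spin n a) * siteOp y (spin n a)
      = siteOp x (spinZ n) * siteOp y (spinZ n) +
        (1 / 2 : ℂ) • (siteOp x (spinPlus n) * (siteOp y (spinPlus n))ᴴ +
          (siteOp x (spinPlus n))ᴴ * siteOp y (spinPlus n)) := by
  rw [Fin.sum_univ_three]
  simp only [spin, Matrix.cons_val_zero, Matrix.cons_val_one, Matrix.cons_val]
  simp only [siteOp_smul, siteOp_add, siteOp_sub, siteOp_conjTranspose, Matrix.smul_mul,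
    Matrix.mul_smul, smul_smul, Matrix.mul_add, Matrix.add_mul, Matrix.mul_sub, Matrix.sub_mul,
    smul_add, smul_sub]
  have h1 : (-Complex.I / 2) * (-Complex.I / 2) = (-(1/4) : ℂ) := by
    ring_nf; rw [Complex.I_sq]; norm_num
  rw [h1]
  have h2 : (1 / 2 : ℂ) * (1 / 2) = 1/4 := by norm_num
  rw [h2]
  module

/-- the three spin matrices satisfy the commutation relations -/
lemma spin_comm : spin n 0 * spin n 1 - spin n 1 * spin n 0 = Complex.I • spin n 2 ∧
    spin n 1 * spin n 2 - spin n 2 * spin n 1 = Complex.I • spin n 0 ∧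
    spin n 2 * spin n 0 - spin n 0 * spin n 2 = Complex.I • spin n 1 := by
  have hp := comm_plus_minus n
  have hz := comm_Z_plus n
  have hzm : spinZ n * (spinPlus n)ᴴ - (spinPlus n)ᴴ * spinZ n = -(spinPlus n)ᴴ := by
    have := congrArg Matrix.conjTranspose hz
    rw [Matrix.conjTranspose_sub, Matrix.conjTranspose_mul, Matrix.conjTranspose_mul,
      spinZ_isHermitian] at this
    calc spinZ n * (spinPlus n)ᴴ - (spinPlus n)ᴴ * spinZ n
        = -((spinPlus n)ᴴ * spinZ n - spinZ n * (spinPlus n)ᴴ) := by abel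
      _ = _ := by rw [this]
  simp only [spin, Matrix.cons_val_zero, Matrix.cons_val_one, Matrix.cons_val]
  refine ⟨?_, ?_, ?_⟩
  · have e : (1 / 2 : ℂ) • (spinPlus n + (spinPlus n)ᴴ) *
          (-Complex.I / 2 : ℂ) • (spinPlus n - (spinPlus n)ᴴ) -
        (-Complex.I / 2 : ℂ) • (spinPlus n - (spinPlus n)ᴴ) *
          (1 / 2 : ℂ) • (spinPlus n + (spinPlus n)ᴴ)
        = (Complex.I / 2) • (spinPlus n * (spinPlus n)ᴴ - (spinPlus n)ᴴ * spinPlus n) := by
      simp only [Matrix.smul_mul, Matrix.mul_smul, Matrix.mul_add, Matrix.add_mul,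
        Matrix.mul_sub, Matrix.sub_mul]
      module
    rw [e, hp, smul_smul]
    congr 1; ring
  · have e : (-Complex.I / 2 : ℂ) • (spinPlus n - (spinPlus n)ᴴ) * spinZ n -
        spinZ n * (-Complex.I / 2 : ℂ) • (spinPlus n - (spinPlus n)ᴴ)
        = (Complex.I / 2) • ((spinZ n * spinPlus n - spinPlus n * spinZ n) -
          (spinZ n * (spinPlus n)ᴴ - (spinPlus n)ᴴ * spinZ n)) := by
      simp only [Matrix.smul_mul, Matrix.mul_smul, Matrix.mul_sub, Matrix.sub_mul]
      module
    rw [e, hz, hzm]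
    module
  · have e : spinZ n * (1 / 2 : ℂ) • (spinPlus n + (spinPlus n)ᴴ) -
        (1 / 2 : ℂ) • (spinPlus n + (spinPlus n)ᴴ) * spinZ n
        = (1 / 2 : ℂ) • ((spinZ n * spinPlus n - spinPlus n * spinZ n) +
          (spinZ n * (spinPlus n)ᴴ - (spinPlus n)ᴴ * spinZ n)) := by
      simp only [Matrix.smul_mul, Matrix.mul_smul, Matrix.mul_add, Matrix.add_mul]
      module
    rw [e, hz, hzm]
    have : Complex.I • ((-Complex.I / 2 : ℂ) • (spinPlus n - (spinPlus n)ᴴ))
        = (1/2 : ℂ) • (spinPlus n - (spinPlus n)ᴴ) := by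
      rw [smul_smul]; congr 1; ring_nf; rw [Complex.I_sq]; norm_num
    rw [this]
    module

/-- the Casimir relation `∑_a (S^a)² = S (S + 1)` with `S = n/2` -/
lemma spin_casimir : ∑ a, spin n a * spin n a
    = (((n : ℂ) / 2) * ((n : ℂ) / 2 + 1)) • (1 : Matrix (Fin (n + 1)) (Fin (n + 1)) ℂ) := by
  rw [Fin.sum_univ_three]
  simp only [spin, Matrix.cons_val_zero, Matrix.cons_val_one, Matrix.cons_val]
  have e : (1 / 2 : ℂ) • (spinPlus n + (spinPlus n)ᴴ) * (1 / 2 : ℂ) • (spinPlus n + (spinPlus n)ᴴ)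
      + (-Complex.I / 2 : ℂ) • (spinPlus n - (spinPlus n)ᴴ) *
        (-Complex.I / 2 : ℂ) • (spinPlus n - (spinPlus n)ᴴ)
      = (1 / 2 : ℂ) • (spinPlus n * (spinPlus n)ᴴ + (spinPlus n)ᴴ * spinPlus n) := by
    simp only [Matrix.smul_mul, Matrix.mul_smul, Matrix.mul_add, Matrix.add_mul,
      Matrix.mul_sub, Matrix.sub_mul, smul_smul, smul_add, smul_sub]
    have h1 : (-Complex.I / 2) * (-Complex.I / 2) = (-(1/4) : ℂ) := by
      ring_nf; rw [Complex.I_sq]; norm_num
    rw [h1]
    module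
  rw [e, plus_mul_minus, minus_mul_plus, spinZ, Matrix.diagonal_mul_diagonal, Matrix.diagonal_add,
    ← Matrix.diagonal_smul, Matrix.diagonal_add, ← Matrix.diagonal_one, ← Matrix.diagonal_smul]
  congr 1
  ext k
  simp only [Pi.smul_apply, smul_eq_mul]
  ring

end OneSite

end Vale.Agent.Lib.P361H29
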