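import Vale.Agent.Lib.P361H29.Gibbs
import Vale.Agent.Lib.P361H29.Spin
import Vale.Agent.Lib.P361H29.DoubleComm2

set_option linter.unusedSimpArgs false

open Matrix

namespace Vale.Agent.Lib.P361H29

/-! ### expectation functional -/
section Ev
variable {ι : Type*} [Fintype ι]

/-- unnormalized expectation -/
noncomputable def ev (ρ X : Matrix ι ι ℂ) : ℝ := (ρ * X).trace.re

lemma ev_add (ρ X Y : Matrix ι ι ℂ) : ev ρ (X + Y) = ev ρ X + ev ρ Y := by
  simp [ev, Matrix.mul_add]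

lemma ev_sub (ρ X Y : Matrix ι ι ℂ) : ev ρ (X - Y) = ev ρ X - ev ρ Y := by
  simp [ev, Matrix.mul_sub]

lemma ev_zero (ρ : Matrix ι ι ℂ) : ev ρ 0 = 0 := by simp [ev]

lemma ev_sum {κ : Type*} (s : Finset κ) (ρ : Matrix ι ι ℂ) (X : κ → Matrix ι ι ℂ) :
    ev ρ (∑ k ∈ s, X k) = ∑ k ∈ s, ev ρ (X k) := by
  simp [ev, Matrix.mul_sum, Matrix.trace_sum]

lemma ev_smul (ρ : Matrix ι ι ℂ) (r : ℝ) (X : Matrix ι ι ℂ) :
    ev ρ ((r : ℂ) • X) = r * ev ρ X := by
  simp [ev]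

variable [DecidableEq ι]

lemma ev_star_mul_nonneg (K : Matrix ι ι ℂ) (hK : K.IsHermitian) (β : ℝ) (B : Matrix ι ι ℂ) :
    0 ≤ ev (NormedSpace.exp (-(β : ℂ) • K)) (Bᴴ * B) := by
  obtain ⟨ψ, E, hKψ, hexp, htr⟩ := exists_diag K hK
  obtain ⟨C, hC⟩ : ∃ C, B = ψ C := ⟨ψ.symm B, by simp⟩
  have hBH : Bᴴ = ψ Cᴴ := by
    rw [hC, ← Matrix.star_eq_conjTranspose, ← Matrix.star_eq_conjTranspose, map_star]
  rw [ev, hexp, hBH, hC, ← map_mul, ← map_mul, htr, trace_diag_mul]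
  simp_rw [conjTranspose_mul_diag]
  rw [Complex.re_sum]
  simp_rw [← Complex.ofReal_sum, ← Complex.ofReal_mul, Complex.ofReal_re]
  refine Finset.sum_nonneg fun a _ => mul_nonneg (Real.exp_pos _).le ?_
  exact Finset.sum_nonneg fun b _ => Complex.normSq_nonneg _

lemma ev_diagonal_nonneg (K : Matrix ι ι ℂ) (hK : K.IsHermitian) (β : ℝ) (d : ι → ℝ)
    (hd : ∀ a, 0 ≤ d a) :
    0 ≤ ev (NormedSpace.exp (-(β : ℂ) • K)) (Matrix.diagonal fun a => (d a : ℂ)) := by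
  have h := ev_star_mul_nonneg K hK β (Matrix.diagonal fun a => ((Real.sqrt (d a) : ℝ) : ℂ))
  rw [Matrix.diagonal_conjTranspose, Matrix.diagonal_mul_diagonal] at h
  have h2 : (Matrix.diagonal fun a => (d a : ℂ)) = Matrix.diagonal (fun i =>
      star (fun a => ((Real.sqrt (d a) : ℝ) : ℂ)) i * ((Real.sqrt (d i) : ℝ) : ℂ)) := by
    congr 1
    ext a
    simp only [Pi.star_apply, Complex.star_def, Complex.conj_ofReal]
    rw [← Complex.ofReal_mul, Real.mul_self_sqrt (hd a)]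
  rw [h2]
  exact h

end Ev

section Model
variable {V : Type*} [Fintype V] [DecidableEq V] (n : ℕ)

/-- `S³_x` -/
noncomputable def Zop (x : V) : Matrix (V → Fin (n + 1)) (V → Fin (n + 1)) ℂ := siteOp x (spinZ n)
/-- `S⁺_x` -/
noncomputable def Pop (x : V) : Matrix (V → Fin (n + 1)) (V → Fin (n + 1)) ℂ :=
  siteOp x (spinPlus n)
/-- `S⁻_x` -/
noncomputable def Qop (x : V) : Matrix (V → Fin (n + 1)) (V → Fin (n + 1)) ℂ := (Pop n x)ᴴ
/-- the number operator `S - S³_x` -/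
noncomputable def Nop (x : V) : Matrix (V → Fin (n + 1)) (V → Fin (n + 1)) ℂ :=
  Matrix.diagonal fun σ => ((((σ x : ℕ)) : ℝ) : ℂ)

lemma Qop_eq (x : V) : Qop n x = siteOp x (spinPlus n)ᴴ := by
  rw [Qop, Pop, siteOp_conjTranspose]

lemma Zop_eq_diag (x : V) : Zop n x = Matrix.diagonal fun σ : V → Fin (n + 1) =>
    (((n : ℝ) / 2 - ((σ x : ℕ) : ℝ) : ℝ) : ℂ) := by
  rw [Zop, spinZ, siteOp_diagonal]
  congr 1
  ext σ
  push_cast
  ring

lemma Zop_hermitian (x : V) : (Zop n x)ᴴ = Zop n x := by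
  rw [Zop, siteOp_conjTranspose, spinZ_isHermitian]

lemma hZZ (x y : V) : Zop n x * Zop n y = Zop n y * Zop n x := by
  by_cases h : x = y
  · rw [h]
  · exact siteOp_comm h _ _

lemma hPP (x y : V) : Pop n x * Pop n y = Pop n y * Pop n x := by
  by_cases h : x = y
  · rw [h]
  · exact siteOp_comm h _ _

lemma hQQ (x y : V) : Qop n x * Qop n y = Qop n y * Qop n x := by
  by_cases h : x = y
  · rw [h]
  · rw [Qop_eq, Qop_eq]; exact siteOp_comm h _ _

lemma hZP (x y : V) : Zop n x * Pop n y - Pop n y * Zop n x = if x = y then Pop n y else 0 := by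
  by_cases h : x = y
  · subst h
    rw [if_pos rfl, Zop, Pop, siteOp_mul, siteOp_mul, ← siteOp_sub, comm_Z_plus]
  · rw [if_neg h, sub_eq_zero]; exact siteOp_comm h _ _

lemma hZQ (x y : V) : Zop n x * Qop n y - Qop n y * Zop n x = if x = y then -Qop n y else 0 := by
  have h := congrArg Matrix.conjTranspose (hZP n x y)
  rw [Matrix.conjTranspose_sub, Matrix.conjTranspose_mul, Matrix.conjTranspose_mul,
    Zop_hermitian] at h
  have h2 : Zop n x * Qop n y - Qop n y * Zop n x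
      = -((Pop n y)ᴴ * Zop n x - Zop n x * (Pop n y)ᴴ) := by
    rw [Qop]; abel
  rw [h2, h]
  split_ifs
  · rfl
  · simp

lemma hPQ (x y : V) : Pop n x * Qop n y - Qop n y * Pop n x
    = if x = y then (2 : ℂ) • Zop n x else 0 := by
  by_cases h : x = y
  · subst h
    rw [if_pos rfl, Zop, Qop_eq, Pop, siteOp_mul, siteOp_mul, ← siteOp_sub, comm_plus_minus,
      siteOp_smul]
  · rw [if_neg h, sub_eq_zero, Qop_eq]; exact siteOp_comm h _ _

/-- adjacency as a complex matrix -/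
noncomputable def adjC (adj : V → V → Prop) [DecidableRel adj] : V → V → ℂ :=
  fun x y => if adj x y then 1 else 0

lemma heisenberg_eq (adj : V → V → Prop) [DecidableRel adj] :
    heisenberg n adj = exch (adjC adj) (Zop n) (Pop n) (Qop n) := by
  rw [heisenberg, exch]
  congr 2
  refine Finset.sum_congr rfl fun x _ => Finset.sum_congr rfl fun y _ => ?_
  rw [adjC]
  split_ifs with h
  · rw [one_smul, sum_spin_siteOp]
    rfl
  · rw [zero_smul]

lemma totalSpin_eq : totalSpin n V = ∑ x : V, Zop n x := rfl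

lemma heisenberg_isHermitian (adj : V → V → Prop) [DecidableRel adj]
    (hs : ∀ x y, adj x y → adj y x) (hi : ∀ x, ¬ adj x x) :
    (heisenberg n adj).IsHermitian := by
  have hspin : ∀ a : Fin 3, (spin n a)ᴴ = spin n a := by
    intro a
    fin_cases a
    · show ((1 / 2 : ℂ) • (spinPlus n + (spinPlus n)ᴴ))ᴴ = (1 / 2 : ℂ) • (spinPlus n + (spinPlus n)ᴴ)
      rw [Matrix.conjTranspose_smul, Matrix.conjTranspose_add, Matrix.conjTranspose_conjTranspose,
        add_comm ((spinPlus n)ᴴ)]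
      congr 1
      simp
    · show ((-Complex.I / 2 : ℂ) • (spinPlus n - (spinPlus n)ᴴ))ᴴ
        = (-Complex.I / 2 : ℂ) • (spinPlus n - (spinPlus n)ᴴ)
      rw [Matrix.conjTranspose_smul, Matrix.conjTranspose_sub, Matrix.conjTranspose_conjTranspose]
      have : star (-Complex.I / 2 : ℂ) = Complex.I / 2 := by
        simp [Complex.star_def]
      rw [this]
      module
    · exact spinZ_isHermitian n
  rw [Matrix.IsHermitian, heisenberg, Matrix.conjTranspose_neg, Matrix.conjTranspose_smul]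
  congr 1
  have h12 : star (1 / 2 : ℂ) = 1 / 2 := by simp [Complex.star_def]
  rw [h12]
  congr 1
  rw [Matrix.conjTranspose_sum]
  refine Finset.sum_congr rfl fun x _ => ?_
  rw [Matrix.conjTranspose_sum]
  refine Finset.sum_congr rfl fun y _ => ?_
  split_ifs with h
  · rw [Matrix.conjTranspose_sum]
    refine Finset.sum_congr rfl fun a _ => ?_
    have hxy : x ≠ y := by intro hxy; subst hxy; exact hi x h
    rw [Matrix.conjTranspose_mul, siteOp_conjTranspose, siteOp_conjTranspose, hspin,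
      siteOp_comm hxy]
  · simp

lemma totalSpin_isHermitian : (totalSpin n V).IsHermitian := by
  rw [Matrix.IsHermitian, totalSpin_eq, Matrix.conjTranspose_sum]
  exact Finset.sum_congr rfl fun x _ => Zop_hermitian n x

lemma ham_isHermitian (adj : V → V → Prop) [DecidableRel adj]
    (hs : ∀ x y, adj x y → adj y x) (hi : ∀ x, ¬ adj x x) (h : ℝ) :
    (heisenberg n adj - (h : ℂ) • totalSpin n V).IsHermitian := by
  refine (heisenberg_isHermitian n adj hs hi).sub ?_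
  rw [Matrix.IsHermitian, Matrix.conjTranspose_smul, (totalSpin_isHermitian n).eq]
  simp

/-- bond bound -/
lemma ev_bond (K : Matrix (V → Fin (n + 1)) (V → Fin (n + 1)) ℂ) (hK : K.IsHermitian) (β : ℝ)
    (u v : V) :
    ev (NormedSpace.exp (-(β : ℂ) • K))
      ((4 : ℂ) • (Zop n u * Zop n v) + Qop n u * Pop n v + Qop n v * Pop n u)
    ≤ (n : ℝ) ^ 2 * ev (NormedSpace.exp (-(β : ℂ) • K)) 1 +
      ev (NormedSpace.exp (-(β : ℂ) • K)) (Nop n u) +
      ev (NormedSpace.exp (-(β : ℂ) • K)) (Nop n v) := by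
  set ρ := NormedSpace.exp (-(β : ℂ) • K) with hρ
  have h1 := ev_star_mul_nonneg K hK β (Pop n u - Pop n v)
  have hpp : ∀ x : V, Qop n x * Pop n x = Matrix.diagonal fun σ : V → Fin (n + 1) =>
      ((((σ x : ℕ) : ℝ) * ((n : ℝ) + 1 - ((σ x : ℕ) : ℝ)) : ℝ) : ℂ) := by
    intro x
    rw [Qop_eq, Pop, siteOp_mul, minus_mul_plus, siteOp_diagonal]
    congr 1
    ext σ
    push_cast
    ring
  have hzz : Zop n u * Zop n v = Matrix.diagonal fun σ : V → Fin (n + 1) =>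
      ((((n : ℝ) / 2 - ((σ u : ℕ) : ℝ)) * ((n : ℝ) / 2 - ((σ v : ℕ) : ℝ)) : ℝ) : ℂ) := by
    rw [Zop_eq_diag, Zop_eq_diag, Matrix.diagonal_mul_diagonal]
    congr 1
    ext σ
    push_cast
    ring
  set d : (V → Fin (n + 1)) → ℝ := fun σ => (n : ℝ) * (((σ u : ℕ) : ℝ) + ((σ v : ℕ) : ℝ))
    - 4 * ((σ u : ℕ) : ℝ) * ((σ v : ℕ) : ℝ) + ((σ u : ℕ) : ℝ) ^ 2 + ((σ v : ℕ) : ℝ) ^ 2 with hd
  have hd0 : ∀ σ, 0 ≤ d σ := by
    intro σ
    have ha : ((σ u : ℕ) : ℝ) ≤ n := by exact_mod_cast Nat.lt_succ_iff.mp (σ u).2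
    have hb : ((σ v : ℕ) : ℝ) ≤ n := by exact_mod_cast Nat.lt_succ_iff.mp (σ v).2
    have ha0 : (0 : ℝ) ≤ ((σ u : ℕ) : ℝ) := by positivity
    have hb0 : (0 : ℝ) ≤ ((σ v : ℕ) : ℝ) := by positivity
    simp only [hd]
    nlinarith [mul_nonneg ha0 (sub_nonneg.2 hb), mul_nonneg hb0 (sub_nonneg.2 ha),
      sq_nonneg (((σ u : ℕ) : ℝ) - ((σ v : ℕ) : ℝ))]
  have h2 := ev_diagonal_nonneg K hK β d hd0
  have hid : (((n : ℝ) ^ 2 : ℝ) : ℂ) • (1 : Matrix (V → Fin (n + 1)) (V → Fin (n + 1)) ℂ)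
      + Nop n u + Nop n v =
      ((4 : ℂ) • (Zop n u * Zop n v) + Qop n u * Pop n v + Qop n v * Pop n u) +
      (Pop n u - Pop n v)ᴴ * (Pop n u - Pop n v) + Matrix.diagonal (fun σ => (d σ : ℂ)) := by
    have e1 : (Pop n u - Pop n v)ᴴ * (Pop n u - Pop n v) = Qop n u * Pop n u + Qop n v * Pop n v
        - Qop n u * Pop n v - Qop n v * Pop n u := by
      rw [Matrix.conjTranspose_sub]
      simp only [Qop, Matrix.sub_mul, Matrix.mul_sub]
      abel
    rw [e1, hpp, hpp, hzz]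
    have e2 : (((n : ℝ) ^ 2 : ℝ) : ℂ) • (1 : Matrix (V → Fin (n + 1)) (V → Fin (n + 1)) ℂ)
      + Nop n u + Nop n v = (4 : ℂ) • (Matrix.diagonal fun σ : V → Fin (n + 1) =>
      ((((n : ℝ) / 2 - ((σ u : ℕ) : ℝ)) * ((n : ℝ) / 2 - ((σ v : ℕ) : ℝ)) : ℝ) : ℂ)) +
      (Matrix.diagonal fun σ : V → Fin (n + 1) =>
      ((((σ u : ℕ) : ℝ) * ((n : ℝ) + 1 - ((σ u : ℕ) : ℝ)) : ℝ) : ℂ)) +
      (Matrix.diagonal fun σ : V → Fin (n + 1) =>
      ((((σ v : ℕ) : ℝ) * ((n : ℝ) + 1 - ((σ v : ℕ) : ℝ)) : ℝ) : ℂ)) +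
      Matrix.diagonal (fun σ => (d σ : ℂ)) := by
      rw [Nop, Nop, ← Matrix.diagonal_one, ← Matrix.diagonal_smul, ← Matrix.diagonal_smul,
        Matrix.diagonal_add, Matrix.diagonal_add, Matrix.diagonal_add, Matrix.diagonal_add,
        Matrix.diagonal_add]
      congr 1
      ext σ
      simp only [Pi.smul_apply, Pi.one_apply, smul_eq_mul, hd]
      push_cast
      ring
    rw [e2]
    abel
  have h3 := congrArg (ev ρ) hid
  rw [ev_add, ev_add, ev_smul, ev_add, ev_add] at h3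
  rw [← hρ] at h1 h2
  linarith

lemma ev_site (K : Matrix (V → Fin (n + 1)) (V → Fin (n + 1)) ℂ) (hK : K.IsHermitian) (β : ℝ)
    (u : V) :
    ev (NormedSpace.exp (-(β : ℂ) • K)) (Qop n u * Pop n u)
    ≤ (n : ℝ) * ev (NormedSpace.exp (-(β : ℂ) • K)) (Nop n u) := by
  have hpp : Qop n u * Pop n u = Matrix.diagonal fun σ : V → Fin (n + 1) =>
      ((((σ u : ℕ) : ℝ) * ((n : ℝ) + 1 - ((σ u : ℕ) : ℝ)) : ℝ) : ℂ) := by
    rw [Qop_eq, Pop, siteOp_mul, minus_mul_plus, siteOp_diagonal]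
    congr 1
    ext σ
    push_cast
    ring
  have h2 := ev_diagonal_nonneg K hK β (fun σ : V → Fin (n + 1) =>
    ((σ u : ℕ) : ℝ) * (((σ u : ℕ) : ℝ) - 1)) (by
      intro σ
      rcases Nat.eq_zero_or_pos (σ u : ℕ) with h | h
      · simp [h]
      · have : (1 : ℝ) ≤ ((σ u : ℕ) : ℝ) := by exact_mod_cast h
        apply mul_nonneg <;> linarith)
  rw [← ev_smul]
  have h3 : (((n : ℝ)) : ℂ) • Nop n u = Qop n u * Pop n u + Matrix.diagonal
      (fun σ : V → Fin (n + 1) => ((((σ u : ℕ) : ℝ) * (((σ u : ℕ) : ℝ) - 1) : ℝ) : ℂ)) := by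
    rw [hpp, Nop, ← Matrix.diagonal_smul, Matrix.diagonal_add]
    congr 1
    ext σ
    simp only [Pi.smul_apply, smul_eq_mul]
    push_cast
    ring
  rw [h3, ev_add]
  linarith

lemma Nop_nonneg (K : Matrix (V → Fin (n + 1)) (V → Fin (n + 1)) ℂ) (hK : K.IsHermitian) (β : ℝ)
    (u : V) : 0 ≤ ev (NormedSpace.exp (-(β : ℂ) • K)) (Nop n u) :=
  ev_diagonal_nonneg K hK β (fun σ : V → Fin (n + 1) => ((σ u : ℕ) : ℝ)) (fun _ => by positivity)

lemma Zop_eq (x : V) : Zop n x = (((n : ℝ) / 2 : ℝ) : ℂ) •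
    (1 : Matrix (V → Fin (n + 1)) (V → Fin (n + 1)) ℂ) - Nop n x := by
  rw [Zop_eq_diag, Nop, ← Matrix.diagonal_one, ← Matrix.diagonal_smul, Matrix.diagonal_sub]
  congr 1
  ext σ
  simp only [Pi.smul_apply, smul_eq_mul]
  push_cast
  ring

end Model

end Vale.Agent.Lib.P361H29
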