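import Mathlib

open Matrix

namespace Vale.Agent.Lib.P361H29

variable {ι : Type*} [Fintype ι] [DecidableEq ι]

/-- elementary inequality behind the finite volume bound -/
lemma key_scalar (E s : ℝ) (hE : 0 ≤ E) :
    (E * Real.exp s - 1) * (E * (1 - s) - 1) ≤ (E - 1) ^ 2 := by
  have h1 : 0 ≤ 1 - Real.exp s * (1 - s) := by
    have h := Real.add_one_le_exp (-s)
    have h2 : Real.exp s * (1 - s) ≤ Real.exp s * Real.exp (-s) :=
      mul_le_mul_of_nonneg_left (by linarith) (Real.exp_pos s).le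
    rw [← Real.exp_add] at h2
    simp at h2
    linarith
  have h2 : 0 ≤ Real.exp s - 1 - s := by
    have := Real.add_one_le_exp s
    linarith
  have h3 : (E - 1) ^ 2 - (E * Real.exp s - 1) * (E * (1 - s) - 1)
      = E ^ 2 * (1 - Real.exp s * (1 - s)) + E * (Real.exp s - 1 - s) := by ring
  have h4 : 0 ≤ E ^ 2 * (1 - Real.exp s * (1 - s)) + E * (Real.exp s - 1 - s) := by positivity
  linarith

lemma key_scalar' (e w : ℝ) (he : 0 < e) :
    (1 - Real.exp (-w)) * ((1 / (Real.exp e - 1)) +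
      (1 / (Real.exp e - 1)) * ((1 / (Real.exp e - 1)) + 1) * (e - w)) ≤ Real.exp (-w) := by
  set q := Real.exp e - 1 with hq
  have hq0 : 0 < q := by
    have := Real.add_one_lt_exp (ne_of_gt he)
    linarith
  have hk := key_scalar (Real.exp e) (w - e) (Real.exp_pos e).le
  have h1 : Real.exp e * Real.exp (w - e) = Real.exp w := by
    rw [← Real.exp_add]; congr 1; ring
  rw [h1] at hk
  have h2 : (1 / q) + (1 / q) * ((1 / q) + 1) * (e - w)
      = (Real.exp e * (1 - (w - e)) - 1) / q ^ 2 := by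
    field_simp
    rw [hq]; ring
  rw [h2]
  have h3 : (1 - Real.exp (-w)) = Real.exp (-w) * (Real.exp w - 1) := by
    rw [mul_sub, ← Real.exp_add]; simp
  rw [h3, mul_assoc]
  have h4 : (Real.exp w - 1) * ((Real.exp e * (1 - (w - e)) - 1) / q ^ 2) ≤ 1 := by
    rw [← mul_div_assoc, div_le_one (by positivity)]
    linarith
  calc Real.exp (-w) * ((Real.exp w - 1) * ((Real.exp e * (1 - (w - e)) - 1) / q ^ 2))
      ≤ Real.exp (-w) * 1 := mul_le_mul_of_nonneg_left h4 (Real.exp_pos _).le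
    _ = Real.exp (-w) := mul_one _

/-- simultaneous transport of the Gibbs weight to the eigenbasis -/
lemma exists_diag (K : Matrix ι ι ℂ) (hK : K.IsHermitian) :
    ∃ (ψ : Matrix ι ι ℂ ≃⋆ₐ[ℂ] Matrix ι ι ℂ) (E : ι → ℝ),
      K = ψ (diagonal (fun a => (E a : ℂ))) ∧
      (∀ β : ℝ, NormedSpace.exp ((-(β : ℂ)) • K)
        = ψ (diagonal (fun a => ((Real.exp (-β * E a) : ℝ) : ℂ)))) ∧
      (∀ X, (ψ X).trace = X.trace) := by
  let U := hK.eigenvectorUnitary
  refine ⟨Unitary.conjStarAlgAut ℂ _ U, hK.eigenvalues, ?_, ?_, ?_⟩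
  · exact hK.spectral_theorem
  · intro β
    have h1 : (-(β : ℂ)) • K = (U : Matrix ι ι ℂ) *
        (diagonal (fun a => (((-β * hK.eigenvalues a : ℝ)) : ℂ))) *
        (U : Matrix ι ι ℂ)⁻¹ := by
      have h0 := hK.spectral_theorem
      rw [Unitary.conjStarAlgAut_apply] at h0
      have hinv : (U : Matrix ι ι ℂ)⁻¹ = star (U : Matrix ι ι ℂ) := by
        apply Matrix.inv_eq_left_inv
        exact Unitary.coe_star_mul_self U
      rw [hinv]
      conv_lhs => rw [h0]
      rw [← Matrix.smul_mul, ← Matrix.mul_smul]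
      congr 2
      ext i j
      by_cases hij : i = j
      · subst hij; simp
      · simp [hij]
    rw [h1, Matrix.exp_conj _ _ (by
      exact ⟨⟨(U : Matrix ι ι ℂ), star (U : Matrix ι ι ℂ), Unitary.coe_mul_star_self U,
        Unitary.coe_star_mul_self U⟩, rfl⟩), Matrix.exp_diagonal]
    have hinv : (U : Matrix ι ι ℂ)⁻¹ = star (U : Matrix ι ι ℂ) := by
        apply Matrix.inv_eq_left_inv
        exact Unitary.coe_star_mul_self U
    rw [hinv, Unitary.conjStarAlgAut_apply]
    congr 3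
    ext a
    rw [Pi.coe_exp]
    simp [← Complex.exp_eq_exp_ℂ]
  · intro X
    rw [Unitary.conjStarAlgAut_apply, Matrix.trace_mul_comm, ← Matrix.mul_assoc,
      Unitary.coe_star_mul_self, Matrix.one_mul]

omit [DecidableEq ι] in
/-- entries on the diagonal -/
lemma mul_conjTranspose_diag (C : Matrix ι ι ℂ) (a : ι) :
    (C * Cᴴ) a a = ∑ b, ((Complex.normSq (C a b) : ℝ) : ℂ) := by
  rw [Matrix.mul_apply]
  refine Finset.sum_congr rfl fun b _ => ?_
  rw [Matrix.conjTranspose_apply, Complex.star_def, Complex.mul_conj]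

omit [DecidableEq ι] in
lemma conjTranspose_mul_diag (C : Matrix ι ι ℂ) (a : ι) :
    (Cᴴ * C) a a = ∑ b, ((Complex.normSq (C b a) : ℝ) : ℂ) := by
  rw [Matrix.mul_apply]
  refine Finset.sum_congr rfl fun b _ => ?_
  rw [Matrix.conjTranspose_apply, Complex.star_def, mul_comm, Complex.mul_conj]

lemma trace_diag_mul (r : ι → ℝ) (X : Matrix ι ι ℂ) :
    (diagonal (fun a => (r a : ℂ)) * X).trace = ∑ a, (r a : ℂ) * X a a := by
  simp [Matrix.trace, Matrix.diagonal_mul]

theorem gibbs_ineq (K B : Matrix ι ι ℂ) (hK : K.IsHermitian) (β e : ℝ) (he : 0 < e) :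
    (1 / (Real.exp e - 1)) *
      (NormedSpace.exp ((-(β : ℂ)) • K) * (Bᴴ * B - B * Bᴴ)).trace.re +
    (1 / (Real.exp e - 1)) * ((1 / (Real.exp e - 1)) + 1) *
      (e * (NormedSpace.exp ((-(β : ℂ)) • K) * (Bᴴ * B - B * Bᴴ)).trace.re -
       β * (NormedSpace.exp ((-(β : ℂ)) • K) *
          (Bᴴ * (K * B - B * K) - (K * B - B * K) * Bᴴ)).trace.re)
    ≤ (NormedSpace.exp ((-(β : ℂ)) • K) * (B * Bᴴ)).trace.re := by
  obtain ⟨ψ, E, hKψ, hexp, htr⟩ := exists_diag K hK
  obtain ⟨C, hC⟩ : ∃ C, B = ψ C := ⟨ψ.symm B, by simp⟩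
  set r : ι → ℝ := fun a => Real.exp (-β * E a) with hr
  have hBH : Bᴴ = ψ Cᴴ := by
    rw [hC, ← Matrix.star_eq_conjTranspose, ← Matrix.star_eq_conjTranspose, map_star]
  -- three traces
  have t1 : (NormedSpace.exp ((-(β : ℂ)) • K) * (B * Bᴴ)).trace.re
      = ∑ a, ∑ b, r b * Complex.normSq (C b a) := by
    rw [hexp, hBH, hC, ← map_mul, ← map_mul, htr, trace_diag_mul]
    simp_rw [mul_conjTranspose_diag]
    rw [Complex.re_sum]
    simp_rw [← Complex.ofReal_sum, ← Complex.ofReal_mul, Complex.ofReal_re, Finset.mul_sum]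
    rw [Finset.sum_comm]
  have t2 : (NormedSpace.exp ((-(β : ℂ)) • K) * (Bᴴ * B)).trace.re
      = ∑ a, ∑ b, r a * Complex.normSq (C b a) := by
    rw [hexp, hBH, hC, ← map_mul, ← map_mul, htr, trace_diag_mul]
    simp_rw [conjTranspose_mul_diag]
    rw [Complex.re_sum]
    simp_rw [← Complex.ofReal_sum, ← Complex.ofReal_mul, Complex.ofReal_re, Finset.mul_sum]
    rfl
  have t12 : (NormedSpace.exp ((-(β : ℂ)) • K) * (Bᴴ * B - B * Bᴴ)).trace.re
      = ∑ a, ∑ b, (r a - r b) * Complex.normSq (C b a) := by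
    rw [Matrix.mul_sub, Matrix.trace_sub, Complex.sub_re, t1, t2, ← Finset.sum_sub_distrib]
    refine Finset.sum_congr rfl fun a _ => ?_
    rw [← Finset.sum_sub_distrib]
    refine Finset.sum_congr rfl fun b _ => ?_
    ring
  have hG : ∀ a b, ((diagonal (fun a => (E a : ℂ))) * C - C * (diagonal (fun a => (E a : ℂ)))) a b
      = ((E a - E b : ℝ) : ℂ) * C a b := by
    intro a b
    rw [Matrix.sub_apply, Matrix.diagonal_mul, Matrix.mul_diagonal]
    push_cast; ring
  have t3 : (NormedSpace.exp ((-(β : ℂ)) • K) *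
          (Bᴴ * (K * B - B * K) - (K * B - B * K) * Bᴴ)).trace.re
      = ∑ a, ∑ b, (r a - r b) * (E b - E a) * Complex.normSq (C b a) := by
    rw [hexp, hBH, hKψ, hC, ← map_mul, ← map_mul, ← map_sub, ← map_mul, ← map_mul, ← map_sub,
      ← map_mul, htr, trace_diag_mul]
    have e1 : ∀ a, (Cᴴ * ((diagonal (fun a => (E a : ℂ))) * C - C * (diagonal (fun a => (E a : ℂ)))) -
        ((diagonal (fun a => (E a : ℂ))) * C - C * (diagonal (fun a => (E a : ℂ)))) * Cᴴ) a a
        = ((∑ b, (E b - E a) * Complex.normSq (C b a) -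
            ∑ b, (E a - E b) * Complex.normSq (C a b) : ℝ) : ℂ) := by
      intro a
      rw [Matrix.sub_apply, Matrix.mul_apply, Matrix.mul_apply]
      push_cast
      congr 1
      · refine Finset.sum_congr rfl fun b _ => ?_
        rw [hG, Matrix.conjTranspose_apply, Complex.star_def, ← Complex.mul_conj]
        push_cast; ring
      · refine Finset.sum_congr rfl fun b _ => ?_
        rw [hG, Matrix.conjTranspose_apply, Complex.star_def, ← Complex.mul_conj]
        push_cast; ring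
    simp_rw [e1]
    rw [Complex.re_sum]
    simp_rw [← Complex.ofReal_mul, Complex.ofReal_re, mul_sub, Finset.mul_sum]
    rw [Finset.sum_sub_distrib]
    have e2 : ∑ a, ∑ b, r a * ((E a - E b) * Complex.normSq (C a b))
        = ∑ a, ∑ b, r b * ((E b - E a) * Complex.normSq (C b a)) := by
      rw [Finset.sum_comm]
    rw [e2, ← Finset.sum_sub_distrib]
    refine Finset.sum_congr rfl fun a _ => ?_
    rw [← Finset.sum_sub_distrib]
    refine Finset.sum_congr rfl fun b _ => ?_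
    ring
  rw [t12, t3, t1]
  simp only [Finset.mul_sum, ← Finset.sum_sub_distrib, ← Finset.sum_add_distrib]
  refine Finset.sum_le_sum fun a _ => Finset.sum_le_sum fun b _ => ?_
  have hk := key_scalar' e (β * (E b - E a)) he
  have hrb : r b = r a * Real.exp (-(β * (E b - E a))) := by
    simp only [hr]; rw [← Real.exp_add]; congr 1; ring
  have hra : 0 < r a := Real.exp_pos _
  have hn := Complex.normSq_nonneg (C b a)
  have := mul_le_mul_of_nonneg_left hk (mul_nonneg hra.le hn)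
  rw [hrb]
  nlinarith [this]

/-- diagonalization with an explicit unitary -/
lemma exists_unitary_diag (K : Matrix ι ι ℂ) (hK : K.IsHermitian) :
    ∃ (U : Matrix ι ι ℂ) (E : ι → ℝ), U * Uᴴ = 1 ∧ Uᴴ * U = 1 ∧
      K = U * diagonal (fun a => (E a : ℂ)) * Uᴴ ∧
      NormedSpace.exp K = U * diagonal (fun a => ((Real.exp (E a) : ℝ) : ℂ)) * Uᴴ := by
  let U := hK.eigenvectorUnitary
  have hU1 : (U : Matrix ι ι ℂ) * (U : Matrix ι ι ℂ)ᴴ = 1 := Unitary.coe_mul_star_self U
  have hU2 : (U : Matrix ι ι ℂ)ᴴ * (U : Matrix ι ι ℂ) = 1 := Unitary.coe_star_mul_self U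
  have hK' : K = (U : Matrix ι ι ℂ) * diagonal (fun a => (hK.eigenvalues a : ℂ)) *
      (U : Matrix ι ι ℂ)ᴴ := by
    have h0 := hK.spectral_theorem
    rw [Unitary.conjStarAlgAut_apply] at h0
    exact h0
  refine ⟨U, hK.eigenvalues, hU1, hU2, hK', ?_⟩
  have hinv : (U : Matrix ι ι ℂ)⁻¹ = (U : Matrix ι ι ℂ)ᴴ := Matrix.inv_eq_left_inv hU2
  conv_lhs => rw [hK']
  rw [← hinv, Matrix.exp_conj _ _ (by
      exact ⟨⟨(U : Matrix ι ι ℂ), (U : Matrix ι ι ℂ)ᴴ, hU1, hU2⟩, rfl⟩), Matrix.exp_diagonal]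
  congr 3
  ext a
  rw [Pi.coe_exp]
  simp [← Complex.exp_eq_exp_ℂ]

lemma conj_diag_apply (U : Matrix ι ι ℂ) (d : ι → ℝ) (a : ι) :
    (U * diagonal (fun a => (d a : ℂ)) * Uᴴ) a a
      = ((∑ j, Complex.normSq (U a j) * d j : ℝ) : ℂ) := by
  rw [Matrix.mul_apply]
  push_cast
  refine Finset.sum_congr rfl fun j _ => ?_
  rw [Matrix.mul_diagonal, Matrix.conjTranspose_apply, Complex.star_def, ← Complex.mul_conj]
  ring

/-- Peierls' inequality -/
theorem peierls (Y : Matrix ι ι ℂ) (hY : Y.IsHermitian) :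
    ∑ a, Real.exp (Y a a).re ≤ (NormedSpace.exp Y).trace.re := by
  obtain ⟨U, y, hU1, hU2, hY', hexp⟩ := exists_unitary_diag Y hY
  rw [Matrix.trace, Complex.re_sum]
  refine Finset.sum_le_sum fun a _ => ?_
  rw [Matrix.diag_apply, hexp, conj_diag_apply, Complex.ofReal_re]
  have h1 : (Y a a).re = ∑ j, Complex.normSq (U a j) * y j := by
    conv_lhs => rw [hY', conj_diag_apply, Complex.ofReal_re]
  rw [h1]
  have hw : ∑ j, Complex.normSq (U a j) = 1 := by
    have h2 := congrArg (fun M : Matrix ι ι ℂ => M a a) hU1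
    simp only [mul_conjTranspose_diag, Matrix.one_apply_eq] at h2
    exact_mod_cast h2
  have := convexOn_exp.map_sum_le (t := Finset.univ) (w := fun j => Complex.normSq (U a j))
    (p := y) (fun j _ => Complex.normSq_nonneg _) hw (fun j _ => Set.mem_univ _)
  simpa [smul_eq_mul] using this

lemma trace_exp_pos [Nonempty ι] (Y : Matrix ι ι ℂ) (hY : Y.IsHermitian) :
    0 < (NormedSpace.exp Y).trace.re := by
  refine lt_of_lt_of_le ?_ (peierls Y hY)
  exact Finset.sum_pos (fun a _ => Real.exp_pos _) Finset.univ_nonempty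

/-- Peierls-Bogoliubov inequality -/
theorem peierls_bogoliubov [Nonempty ι] (A B : Matrix ι ι ℂ) (hA : A.IsHermitian)
    (hB : B.IsHermitian) :
    (NormedSpace.exp A).trace.re *
      Real.exp ((NormedSpace.exp A * B).trace.re / (NormedSpace.exp A).trace.re)
    ≤ (NormedSpace.exp (A + B)).trace.re := by
  obtain ⟨U, α, hU1, hU2, hA', hexp⟩ := exists_unitary_diag A hA
  set Bt : Matrix ι ι ℂ := Uᴴ * B * U with hBt
  have hBt' : B = U * Bt * Uᴴ := by
    rw [hBt]
    calc B = (U * Uᴴ) * B * (U * Uᴴ) := by rw [hU1]; simp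
      _ = U * (Uᴴ * B * U) * Uᴴ := by simp only [Matrix.mul_assoc]
  have hBtH : Bt.IsHermitian := by
    rw [hBt, Matrix.IsHermitian, Matrix.conjTranspose_mul, Matrix.conjTranspose_mul, hB.eq,
      Matrix.conjTranspose_conjTranspose, Matrix.mul_assoc]
  set D : Matrix ι ι ℂ := diagonal (fun a => (α a : ℂ)) with hD
  have hDH : D.IsHermitian := by
    rw [hD, Matrix.IsHermitian, Matrix.diagonal_conjTranspose]
    congr 1
    ext a
    simp
  have hinv : U⁻¹ = Uᴴ := Matrix.inv_eq_left_inv hU2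
  have hunit : IsUnit U := ⟨⟨U, Uᴴ, hU1, hU2⟩, rfl⟩
  have hsum : A + B = U * (D + Bt) * U⁻¹ := by
    conv_lhs => rw [hA', hBt']
    rw [hinv, Matrix.mul_add, Matrix.add_mul]
  have htr : (NormedSpace.exp (A + B)).trace = (NormedSpace.exp (D + Bt)).trace := by
    rw [hsum, Matrix.exp_conj _ _ hunit, hinv, Matrix.trace_mul_comm, ← Matrix.mul_assoc, hU2,
      Matrix.one_mul]
  have hZ : (NormedSpace.exp A).trace.re = ∑ a, Real.exp (α a) := by
    rw [hexp, Matrix.trace_mul_comm, ← Matrix.mul_assoc, hU2, Matrix.one_mul]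
    simp [Matrix.trace, Complex.exp_ofReal_re]
  have hZB : (NormedSpace.exp A * B).trace.re = ∑ a, Real.exp (α a) * (Bt a a).re := by
    rw [hexp, hBt']
    have e1 : U * diagonal (fun a => ((Real.exp (α a) : ℝ) : ℂ)) * Uᴴ * (U * Bt * Uᴴ)
        = U * (diagonal (fun a => ((Real.exp (α a) : ℝ) : ℂ)) * Bt) * Uᴴ := by
      calc _ = U * diagonal (fun a => ((Real.exp (α a) : ℝ) : ℂ)) * (Uᴴ * U) * Bt * Uᴴ := by
            simp only [Matrix.mul_assoc]
        _ = _ := by rw [hU2]; simp only [Matrix.mul_assoc, Matrix.one_mul]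
    rw [e1, Matrix.trace_mul_comm, ← Matrix.mul_assoc, hU2, Matrix.one_mul, trace_diag_mul,
      Complex.re_sum]
    refine Finset.sum_congr rfl fun a _ => ?_
    rw [Complex.re_ofReal_mul]
  rw [htr, hZ, hZB]
  have hZpos : 0 < ∑ a, Real.exp (α a) :=
    Finset.sum_pos (fun a _ => Real.exp_pos _) Finset.univ_nonempty
  refine le_trans ?_ (peierls _ (hDH.add hBtH))
  have hj := convexOn_exp.map_sum_le (t := Finset.univ)
    (w := fun a => Real.exp (α a) / ∑ a, Real.exp (α a)) (p := fun a => (Bt a a).re)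
    (fun j _ => div_nonneg (Real.exp_pos _).le hZpos.le)
    (by rw [← Finset.sum_div, div_self hZpos.ne'])
    (fun j _ => Set.mem_univ _)
  simp only [smul_eq_mul] at hj
  have e2 : (∑ a, Real.exp (α a) * (Bt a a).re) / ∑ a, Real.exp (α a)
      = ∑ a, Real.exp (α a) / (∑ a, Real.exp (α a)) * (Bt a a).re := by
    rw [Finset.sum_div]
    refine Finset.sum_congr rfl fun a _ => ?_
    ring
  rw [e2]
  calc (∑ a, Real.exp (α a)) * Real.exp (∑ a, Real.exp (α a) / (∑ a, Real.exp (α a)) * (Bt a a).re)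
      ≤ (∑ a, Real.exp (α a)) * ∑ a, Real.exp (α a) / (∑ a, Real.exp (α a)) *
          Real.exp (Bt a a).re := mul_le_mul_of_nonneg_left hj hZpos.le
    _ = ∑ a, Real.exp (α a) * Real.exp (Bt a a).re := by
        rw [Finset.mul_sum]
        refine Finset.sum_congr rfl fun a _ => ?_
        rw [← mul_assoc, mul_div_cancel₀ _ hZpos.ne']
    _ = ∑ a, Real.exp ((D + Bt) a a).re := by
        refine Finset.sum_congr rfl fun a _ => ?_
        rw [← Real.exp_add, Matrix.add_apply, Complex.add_re, hD, Matrix.diagonal_apply_eq,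
          Complex.ofReal_re]

end Vale.Agent.Lib.P361H29
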