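import Vale.Agent.Lib.P361H29.FiniteVol

set_option linter.unusedSimpArgs false

open Matrix

namespace Vale.Agent.Lib.P361H29

variable {V : Type*} [Fintype V] [DecidableEq V] (n : ℕ)

lemma comm_total_B (w : V → ℂ) :
    totalSpin n V * (∑ v, w v • Qop n v) - (∑ v, w v • Qop n v) * totalSpin n V
      = -(∑ v, w v • Qop n v) := by
  rw [totalSpin_eq, Finset.sum_mul_sum, Finset.sum_mul_sum,
    Finset.sum_comm (f := fun i j => (w i • Qop n i) * Zop n j), ← Finset.sum_sub_distrib]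
  have h1 : ∀ x : V, ∑ j, Zop n x * w j • Qop n j - ∑ j, w j • Qop n j * Zop n x
      = -(w x • Qop n x) := by
    intro x
    rw [← Finset.sum_sub_distrib]
    have h2 : ∀ j, Zop n x * w j • Qop n j - w j • Qop n j * Zop n x
        = w j • (if x = j then -Qop n j else 0) := by
      intro j
      rw [Matrix.mul_smul, Matrix.smul_mul, ← smul_sub, hZQ]
    simp_rw [h2]
    simp
  simp_rw [h1]
  rw [Finset.sum_neg_distrib]

lemma comm_P_Q (w w' : V → ℂ) (hw : ∀ v, w' v * w v = 1) :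
    (∑ u, w' u • Pop n u) * (∑ v, w v • Qop n v) - (∑ v, w v • Qop n v) * (∑ u, w' u • Pop n u)
      = (2 : ℂ) • totalSpin n V := by
  rw [totalSpin_eq, Finset.sum_mul_sum, Finset.sum_mul_sum,
    Finset.sum_comm (f := fun i j => (w i • Qop n i) * (w' j • Pop n j)),
    ← Finset.sum_sub_distrib, Finset.smul_sum]
  refine Finset.sum_congr rfl fun u _ => ?_
  rw [← Finset.sum_sub_distrib]
  have h2 : ∀ j, (w' u • Pop n u) * (w j • Qop n j) - (w j • Qop n j) * (w' u • Pop n u)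
      = (w' u * w j) • (if u = j then (2 : ℂ) • Zop n u else 0) := by
    intro j
    rw [smul_mul_smul_comm, smul_mul_smul_comm, mul_comm (w j), ← smul_sub, hPQ]
  simp_rw [h2]
  simp [hw]

/-- summed inequality for one pair of conjugate modes -/
lemma pair_ineq (adj : V → V → Prop) [DecidableRel adj]
    (hs : ∀ x y, adj x y → adj y x) (hi : ∀ x, ¬ adj x x) (β h e : ℝ) (he : 0 < e)
    (w : V → ℂ) (C : V → V → ℝ)
    (hw : ∀ v, star (w v) * w v = 1)
    (hC : ∀ u v, star (w u) * w v + w u * star (w v) = 2 * (C u v : ℂ)) (hβ : 0 < β)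
    (hC1 : ∀ u v, C u v ≤ 1)
    (ρ : Matrix (V → Fin (n + 1)) (V → Fin (n + 1)) ℂ)
    (hρ : ρ = NormedSpace.exp (-(β : ℂ) • (heisenberg n adj - (h : ℂ) • totalSpin n V)))
    (hE : β * (∑ u, ∑ v, (if adj u v then (1 - C u v) else 0) *
        ((n : ℝ) ^ 2 * ev ρ 1 + ev ρ (Nop n u) + ev ρ (Nop n v))) +
        4 * β * h * ev ρ (totalSpin n V) ≤ 4 * e * ev ρ (totalSpin n V)) :
    4 * (1 / (Real.exp e - 1)) * ev ρ (totalSpin n V) ≤
      ev ρ ((∑ v, w v • Qop n v) * (∑ v, star (w v) • Pop n v)) +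
      ev ρ ((∑ v, star (w v) • Qop n v) * (∑ v, w v • Pop n v)) := by
  set H := heisenberg n adj with hH
  set M := totalSpin n V with hM
  set K := H - (h : ℂ) • M with hK
  have hKH : K.IsHermitian := ham_isHermitian n adj hs hi h
  set B := ∑ v, w v • Qop n v with hB
  set B' := ∑ v, star (w v) • Qop n v with hB'
  have hBH : Bᴴ = ∑ v, star (w v) • Pop n v := by
    rw [hB, Matrix.conjTranspose_sum]
    refine Finset.sum_congr rfl fun v _ => ?_
    rw [Matrix.conjTranspose_smul, Qop, Matrix.conjTranspose_conjTranspose]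
  have hB'H : B'ᴴ = ∑ v, w v • Pop n v := by
    rw [hB', Matrix.conjTranspose_sum]
    refine Finset.sum_congr rfl fun v _ => ?_
    rw [Matrix.conjTranspose_smul, Qop, Matrix.conjTranspose_conjTranspose, star_star]
  have hc1 : Bᴴ * B - B * Bᴴ = (2 : ℂ) • M := by
    rw [hBH, hB]; exact comm_P_Q n w (fun v => star (w v)) hw
  have hc2 : B'ᴴ * B' - B' * B'ᴴ = (2 : ℂ) • M := by
    rw [hB'H, hB']; exact comm_P_Q n (fun v => star (w v)) w (fun v => by rw [mul_comm]; exact hw v)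
  have hk1 : K * B - B * K = (H * B - B * H) + (h : ℂ) • B := by
    have h1 := comm_total_B n w
    rw [← hM, ← hB] at h1
    have h2 : K * B - B * K = (H * B - B * H) - (h : ℂ) • (M * B - B * M) := by
      rw [hK]
      simp only [Matrix.sub_mul, Matrix.mul_sub, Matrix.smul_mul, Matrix.mul_smul, smul_sub]
      abel
    rw [h2, h1]; module
  have hk2 : K * B' - B' * K = (H * B' - B' * H) + (h : ℂ) • B' := by
    have h1 := comm_total_B n (fun v => star (w v))
    rw [← hM, ← hB'] at h1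
    have h2 : K * B' - B' * K = (H * B' - B' * H) - (h : ℂ) • (M * B' - B' * M) := by
      rw [hK]
      simp only [Matrix.sub_mul, Matrix.mul_sub, Matrix.smul_mul, Matrix.mul_smul, smul_sub]
      abel
    rw [h2, h1]; module
  have hd1 : Bᴴ * (K * B - B * K) - (K * B - B * K) * Bᴴ
      = (Bᴴ * (H * B - B * H) - (H * B - B * H) * Bᴴ) + (h : ℂ) • (Bᴴ * B - B * Bᴴ) := by
    rw [hk1]
    simp only [Matrix.add_mul, Matrix.mul_add, Matrix.smul_mul, Matrix.mul_smul, smul_sub]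
    abel
  have hd2 : B'ᴴ * (K * B' - B' * K) - (K * B' - B' * K) * B'ᴴ
      = (B'ᴴ * (H * B' - B' * H) - (H * B' - B' * H) * B'ᴴ) + (h : ℂ) • (B'ᴴ * B' - B' * B'ᴴ) := by
    rw [hk2]
    simp only [Matrix.add_mul, Matrix.mul_add, Matrix.smul_mul, Matrix.mul_smul, smul_sub]
    abel
  have hds := double_comm_sum (adjC adj) (fun x y => by
      simp only [adjC]
      by_cases h : adj x y
      · rw [if_pos h, if_pos (hs x y h)]
      · rw [if_neg h, if_neg (fun h' => h (hs y x h'))]) (fun x => by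
      simp only [adjC]; rw [if_neg (hi x)]) (Zop n) (Pop n) (Qop n) (hZZ n) (hZP n) (hZQ n)
      (hQQ n) (hPQ n) w (fun v => star (w v)) hw (fun u v => (C u v : ℂ)) hC
  rw [← heisenberg_eq, ← hH, ← hB, ← hB', ← hBH, ← hB'H] at hds
  -- evaluation of the sum of double commutators
  have hev : ev ρ (Bᴴ * (H * B - B * H) - (H * B - B * H) * Bᴴ) +
      ev ρ (B'ᴴ * (H * B' - B' * H) - (H * B' - B' * H) * B'ᴴ)
      ≤ ∑ u, ∑ v, (if adj u v then (1 - C u v) else 0) *
        ((n : ℝ) ^ 2 * ev ρ 1 + ev ρ (Nop n u) + ev ρ (Nop n v)) := by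
    rw [← ev_add, hds, ev_sum]
    refine Finset.sum_le_sum fun u _ => ?_
    rw [ev_sum]
    refine Finset.sum_le_sum fun v _ => ?_
    have e1 : (1 - (C u v : ℂ)) * adjC adj u v = (((if adj u v then (1 - C u v) else 0) : ℝ) : ℂ) := by
      simp only [adjC]
      split_ifs <;> push_cast <;> ring
    rw [e1, ev_smul]
    apply mul_le_mul_of_nonneg_left
    · rw [hρ]; exact ev_bond n K hKH β u v
    · split_ifs
      · linarith [hC1 u v]
      · exact le_refl _
  have g1 := gibbs_ineq K B hKH β e he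
  have g2 := gibbs_ineq K B' hKH β e he
  rw [← hρ] at g1 g2
  change _ * ev ρ _ + _ * (e * ev ρ _ - β * ev ρ _) ≤ ev ρ _ at g1
  change _ * ev ρ _ + _ * (e * ev ρ _ - β * ev ρ _) ≤ ev ρ _ at g2
  rw [hd1, hc1, ev_add] at g1
  rw [hd2, hc2, ev_add] at g2
  have e2 : ev ρ ((2 : ℂ) • M) = 2 * ev ρ M := by
    have := ev_smul ρ 2 M
    simpa using this
  have e3 : ev ρ ((h : ℂ) • ((2 : ℂ) • M)) = h * (2 * ev ρ M) := by
    rw [ev_smul, e2]
  rw [e3, e2] at g1 g2
  rw [hBH] at g1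
  rw [hB'H] at g2
  set ν := 1 / (Real.exp e - 1) with hν
  have hν0 : 0 < ν := by
    have := Real.add_one_lt_exp (ne_of_gt he)
    rw [hν]; apply one_div_pos.2; linarith
  set D1 := ev ρ (Bᴴ * (H * B - B * H) - (H * B - B * H) * Bᴴ) with hD1
  set D2 := ev ρ (B'ᴴ * (H * B' - B' * H) - (H * B' - B' * H) * B'ᴴ) with hD2
  rw [hBH] at hD1
  rw [hB'H] at hD2
  rw [← hD1] at g1
  rw [← hD2] at g2
  have h4 : 0 ≤ 4 * e * ev ρ M - β * (D1 + D2) - 4 * β * h * ev ρ M := by
    have := mul_le_mul_of_nonneg_left hev hβ.le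
    linarith
  have h5 : 0 ≤ ν * (ν + 1) * (4 * e * ev ρ M - β * (D1 + D2) - 4 * β * h * ev ρ M) := by
    positivity
  nlinarith [g1, g2, h5]

/-- The finite volume inequality. -/
theorem modes_ineq (adj : V → V → Prop) [DecidableRel adj]
    (hs : ∀ x y, adj x y → adj y x) (hi : ∀ x, ¬ adj x x) (β h : ℝ) (hβ : 0 < β) (hh : 0 < h)
    {κ : Type*} [Fintype κ] (w : κ → V → ℂ) (C : κ → V → V → ℝ) (c : κ → ℝ)
    (hw : ∀ k v, star (w k v) * w k v = 1)
    (hC : ∀ k u v, star (w k u) * w k v + w k u * star (w k v) = 2 * (C k u v : ℂ))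
    (hC1 : ∀ k u v, C k u v ≤ 1) (hCs : ∀ k u v, C k u v = C k v u)
    (hcomp : ∀ u v, ∑ k, w k u * star (w k v) = if u = v then (Fintype.card κ : ℂ) else 0)
    (hc0 : ∀ k, 0 ≤ c k)
    (hc : ∀ k u, ∑ v, (if adj u v then (1 - C k u v) else 0) ≤ 2 * c k)
    (ρ : Matrix (V → Fin (n + 1)) (V → Fin (n + 1)) ℂ)
    (hρ : ρ = NormedSpace.exp (-(β : ℂ) • (heisenberg n adj - (h : ℂ) • totalSpin n V)))
    (lam : ℝ) (hlam : 0 < lam)
    (hcond : (n : ℝ) ^ 2 * (Fintype.card V * ev ρ 1) + 2 * ∑ x, ev ρ (Nop n x)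
      ≤ 4 * lam * ev ρ (totalSpin n V)) :
    ev ρ (totalSpin n V) * ∑ k, 1 / (Real.exp (β * (2 * lam * c k + h)) - 1)
      ≤ (n : ℝ) / 2 * Fintype.card κ * ∑ x, ev ρ (Nop n x) := by
  have hKH := ham_isHermitian n adj hs hi h
  have hev1 : 0 ≤ ev ρ 1 := by
    have := ev_star_mul_nonneg _ hKH β 1
    rw [← hρ] at this
    simpa using this
  have hN0 : ∀ x, 0 ≤ ev ρ (Nop n x) := by
    intro x; rw [hρ]; exact Nop_nonneg n _ hKH β x
  have key : ∀ k, 4 * (1 / (Real.exp (β * (2 * lam * c k + h)) - 1)) * ev ρ (totalSpin n V) ≤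
      ev ρ ((∑ v, w k v • Qop n v) * (∑ v, star (w k v) • Pop n v)) +
      ev ρ ((∑ v, star (w k v) • Qop n v) * (∑ v, w k v • Pop n v)) := by
    intro k
    have hck := hc0 k
    apply pair_ineq n adj hs hi β h (β * (2 * lam * c k + h)) (by positivity) (w k) (C k)
      (hw k) (hC k) hβ (hC1 k) ρ hρ
    -- the energy bound
    have h1 : ∑ u, ∑ v, (if adj u v then (1 - C k u v) else 0) *
        ((n : ℝ) ^ 2 * ev ρ 1 + ev ρ (Nop n u) + ev ρ (Nop n v))
        = ∑ u, ((n : ℝ) ^ 2 * ev ρ 1 + 2 * ev ρ (Nop n u)) *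
          ∑ v, (if adj u v then (1 - C k u v) else 0) := by
      have h2 : ∑ u, ∑ v, (if adj u v then (1 - C k u v) else 0) * ev ρ (Nop n v)
          = ∑ u, ∑ v, (if adj u v then (1 - C k u v) else 0) * ev ρ (Nop n u) := by
        rw [Finset.sum_comm]
        refine Finset.sum_congr rfl fun u _ => Finset.sum_congr rfl fun v _ => ?_
        rw [hCs k v u]
        by_cases h : adj u v
        · rw [if_pos h, if_pos (hs u v h)]
        · rw [if_neg h, if_neg (fun h' => h (hs v u h'))]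
      simp only [mul_add, Finset.sum_add_distrib]
      rw [h2]
      simp only [← Finset.sum_add_distrib]
      refine Finset.sum_congr rfl fun u _ => ?_
      rw [Finset.mul_sum]
      refine Finset.sum_congr rfl fun v _ => ?_
      ring
    have h3 : ∑ u, ((n : ℝ) ^ 2 * ev ρ 1 + 2 * ev ρ (Nop n u)) *
          ∑ v, (if adj u v then (1 - C k u v) else 0)
        ≤ ∑ u, ((n : ℝ) ^ 2 * ev ρ 1 + 2 * ev ρ (Nop n u)) * (2 * c k) := by
      refine Finset.sum_le_sum fun u _ => ?_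
      apply mul_le_mul_of_nonneg_left (hc k u)
      have := hN0 u
      positivity
    have h4 : ∑ u : V, ((n : ℝ) ^ 2 * ev ρ 1 + 2 * ev ρ (Nop n u)) * (2 * c k)
        = ((n : ℝ) ^ 2 * (Fintype.card V * ev ρ 1) + 2 * ∑ x, ev ρ (Nop n x)) * (2 * c k) := by
      rw [← Finset.sum_mul, Finset.sum_add_distrib, Finset.sum_const, ← Finset.mul_sum,
        Finset.card_univ, nsmul_eq_mul]
      ring
    have h5 : ((n : ℝ) ^ 2 * (Fintype.card V * ev ρ 1) + 2 * ∑ x, ev ρ (Nop n x)) * (2 * c k)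
        ≤ 4 * lam * ev ρ (totalSpin n V) * (2 * c k) :=
      mul_le_mul_of_nonneg_right hcond (by positivity)
    have h6 := mul_le_mul_of_nonneg_left ((h1.le.trans h3).trans (h4.le.trans h5)) hβ.le
    nlinarith [h6]
  have hsum := Finset.sum_le_sum (fun k (_ : k ∈ Finset.univ) => key k)
  have hcomp' : ∀ u v, ∑ k, star (w k u) * w k v
      = if u = v then (Fintype.card κ : ℂ) else 0 := by
    intro u v
    have h1 := congrArg star (hcomp u v)
    rw [star_sum] at h1
    simp only [star_mul', star_star] at h1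
    rw [h1]
    split_ifs <;> simp
  have hA : ∑ k, (∑ v, w k v • Qop n v) * (∑ v, star (w k v) • Pop n v)
      = ∑ u, (Fintype.card κ : ℂ) • (Qop n u * Pop n u) := by
    have h1 : ∀ k, (∑ v, w k v • Qop n v) * (∑ v, star (w k v) • Pop n v)
        = ∑ u, ∑ v, (w k u * star (w k v)) • (Qop n u * Pop n v) := by
      intro k
      rw [Finset.sum_mul_sum]
      refine Finset.sum_congr rfl fun u _ => Finset.sum_congr rfl fun v _ => ?_
      rw [smul_mul_smul_comm]
    simp_rw [h1]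
    rw [Finset.sum_comm]
    refine Finset.sum_congr rfl fun u _ => ?_
    rw [Finset.sum_comm]
    simp_rw [← Finset.sum_smul, hcomp]
    simp
  have hB : ∑ k, (∑ v, star (w k v) • Qop n v) * (∑ v, w k v • Pop n v)
      = ∑ u, (Fintype.card κ : ℂ) • (Qop n u * Pop n u) := by
    have h1 : ∀ k, (∑ v, star (w k v) • Qop n v) * (∑ v, w k v • Pop n v)
        = ∑ u, ∑ v, (star (w k u) * w k v) • (Qop n u * Pop n v) := by
      intro k
      rw [Finset.sum_mul_sum]
      refine Finset.sum_congr rfl fun u _ => Finset.sum_congr rfl fun v _ => ?_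
      rw [smul_mul_smul_comm]
    simp_rw [h1]
    rw [Finset.sum_comm]
    refine Finset.sum_congr rfl fun u _ => ?_
    rw [Finset.sum_comm]
    simp_rw [← Finset.sum_smul, hcomp']
    simp
  rw [Finset.sum_add_distrib, ← ev_sum, ← ev_sum, hA, hB] at hsum
  have hcardev : ev ρ (∑ u, (Fintype.card κ : ℂ) • (Qop n u * Pop n u))
      ≤ (Fintype.card κ : ℝ) * ((n : ℝ) * ∑ x, ev ρ (Nop n x)) := by
    rw [ev_sum, Finset.mul_sum, Finset.mul_sum]
    refine Finset.sum_le_sum fun u _ => ?_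
    have h1 := ev_smul ρ (Fintype.card κ : ℝ) (Qop n u * Pop n u)
    rw [show (Fintype.card κ : ℂ) = (((Fintype.card κ : ℝ)) : ℂ) by push_cast; rfl, h1]
    apply mul_le_mul_of_nonneg_left _ (by positivity)
    rw [hρ]
    exact ev_site n _ hKH β u
  rw [← Finset.sum_mul, ← Finset.mul_sum] at hsum
  nlinarith [hsum, hcardev]

end Vale.Agent.Lib.P361H29
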