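import Vale.Agent.Lib.P361H29.FiniteVol

set_option linter.unusedSimpArgs false

open Matrix Kronecker

namespace Vale.Agent.Lib.P361H29

/-! ### trace of exponentials: reindexing and Kronecker sums -/

lemma trace_exp_reindex {ι κ : Type*} [Fintype ι] [DecidableEq ι] [Fintype κ] [DecidableEq κ]
    (e : ι ≃ κ) (A : Matrix ι ι ℂ) :
    (NormedSpace.exp (Matrix.reindex e e A)).trace = (NormedSpace.exp A).trace := by
  have h : Matrix.reindex e e (NormedSpace.exp A) = NormedSpace.exp (Matrix.reindex e e A) := by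
    open scoped Norms.Operator in
    exact NormedSpace.map_exp (Matrix.reindexAlgEquiv ℂ ℂ e).toRingEquiv.toRingHom
      (by
        refine continuous_matrix fun i j => ?_
        exact continuous_id.matrix_elem (e.symm i) (e.symm j)) A
  rw [← h]
  simp only [Matrix.trace, Matrix.diag_apply, Matrix.reindex_apply, Matrix.submatrix_apply]
  exact Equiv.sum_comp e.symm (fun i => (NormedSpace.exp A) i i)

lemma trace_exp_kron {ι κ : Type*} [Fintype ι] [DecidableEq ι] [Fintype κ] [DecidableEq κ]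
    (A : Matrix ι ι ℂ) (B : Matrix κ κ ℂ) (hA : A.IsHermitian) (hB : B.IsHermitian) :
    (NormedSpace.exp (A ⊗ₖ (1 : Matrix κ κ ℂ) + (1 : Matrix ι ι ℂ) ⊗ₖ B)).trace
      = (NormedSpace.exp A).trace * (NormedSpace.exp B).trace := by
  obtain ⟨U, α, hU1, hU2, hA', hexpA⟩ := exists_unitary_diag A hA
  obtain ⟨V, β, hV1, hV2, hB', hexpB⟩ := exists_unitary_diag B hB
  set D : Matrix (ι × κ) (ι × κ) ℂ := diagonal (fun p => ((α p.1 + β p.2 : ℝ) : ℂ)) with hD
  set T : Matrix (ι × κ) (ι × κ) ℂ := U ⊗ₖ V with hT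
  have hT1 : T * (Uᴴ ⊗ₖ Vᴴ) = 1 := by
    rw [hT, ← Matrix.mul_kronecker_mul, hU1, hV1, Matrix.one_kronecker_one]
  have hT2 : (Uᴴ ⊗ₖ Vᴴ) * T = 1 := by
    rw [hT, ← Matrix.mul_kronecker_mul, hU2, hV2, Matrix.one_kronecker_one]
  have hinv : T⁻¹ = Uᴴ ⊗ₖ Vᴴ := Matrix.inv_eq_left_inv hT2
  have hunit : IsUnit T := ⟨⟨T, Uᴴ ⊗ₖ Vᴴ, hT1, hT2⟩, rfl⟩
  have hDsum : D = (diagonal (fun a => (α a : ℂ))) ⊗ₖ (1 : Matrix κ κ ℂ) +
      (1 : Matrix ι ι ℂ) ⊗ₖ (diagonal (fun b => (β b : ℂ))) := by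
    rw [← Matrix.diagonal_one, ← Matrix.diagonal_one, Matrix.diagonal_kronecker_diagonal,
      Matrix.diagonal_kronecker_diagonal, Matrix.diagonal_add, hD]
    congr 1
    ext p
    push_cast
    ring
  have hsum : A ⊗ₖ (1 : Matrix κ κ ℂ) + (1 : Matrix ι ι ℂ) ⊗ₖ B = T * D * T⁻¹ := by
    rw [hinv, hDsum, Matrix.mul_add, Matrix.add_mul, hT, ← Matrix.mul_kronecker_mul,
      ← Matrix.mul_kronecker_mul, ← Matrix.mul_kronecker_mul, ← Matrix.mul_kronecker_mul,
      Matrix.mul_one, Matrix.mul_one, hV1, hU1, ← hA', ← hB']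
  rw [hsum, Matrix.exp_conj _ _ hunit, hinv, Matrix.trace_mul_comm, ← Matrix.mul_assoc, hT2,
    Matrix.one_mul, hD, Matrix.exp_diagonal]
  have hZA : (NormedSpace.exp A).trace = ∑ a, ((Real.exp (α a) : ℝ) : ℂ) := by
    rw [hexpA, Matrix.trace_mul_comm, ← Matrix.mul_assoc, hU2, Matrix.one_mul]
    simp [Matrix.trace]
  have hZB : (NormedSpace.exp B).trace = ∑ b, ((Real.exp (β b) : ℝ) : ℂ) := by
    rw [hexpB, Matrix.trace_mul_comm, ← Matrix.mul_assoc, hV2, Matrix.one_mul]
    simp [Matrix.trace]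
  rw [hZA, hZB, Finset.sum_mul_sum, Matrix.trace]
  rw [Fintype.sum_prod_type]
  refine Finset.sum_congr rfl fun a _ => Finset.sum_congr rfl fun b _ => ?_
  rw [Matrix.diag_apply, Matrix.diagonal_apply_eq, Pi.coe_exp, ← Complex.exp_eq_exp_ℂ]
  push_cast
  rw [Complex.exp_add]

/-! ### log partition function of a graph -/
section LogZ

/-- `log Tr exp(-β(H-hM))` -/
noncomputable def logZ (n : ℕ) {V : Type*} [Fintype V] [DecidableEq V] (adj : V → V → Prop)
    [DecidableRel adj] (β h : ℝ) : ℝ :=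
  Real.log (NormedSpace.exp (-(β : ℂ) • (heisenberg n adj - (h : ℂ) • totalSpin n V))).trace.re

variable {V W : Type*} [Fintype V] [DecidableEq V] [Fintype W] [DecidableEq W] {n : ℕ}

/-- equivalence of configuration spaces -/
def confEquiv (n : ℕ) (e : V ≃ W) : (V → Fin (n + 1)) ≃ (W → Fin (n + 1)) :=
  e.arrowCongr (Equiv.refl _)

lemma reindex_siteOp (e : V ≃ W) (x : V) (A : Matrix (Fin (n + 1)) (Fin (n + 1)) ℂ) :
    Matrix.reindex (confEquiv n e) (confEquiv n e) (siteOp x A) = siteOp (e x) A := by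
  ext σ τ
  simp only [Matrix.reindex_apply, Matrix.submatrix_apply, siteOp]
  have h1 : ((confEquiv n e).symm σ) x = σ (e x) := by
    simp [confEquiv, Equiv.arrowCongr]
  have h2 : ((confEquiv n e).symm τ) x = τ (e x) := by
    simp [confEquiv, Equiv.arrowCongr]
  have h3 : (∀ z, z ≠ x → (confEquiv n e).symm σ z = (confEquiv n e).symm τ z) ↔
      (∀ z, z ≠ e x → σ z = τ z) := by
    constructor
    · intro h z hz
      have := h (e.symm z) (by intro hc; apply hz; rw [← hc]; simp)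
      simpa [confEquiv, Equiv.arrowCongr] using this
    · intro h z hz
      have := h (e z) (by intro hc; apply hz; exact e.injective hc)
      simpa [confEquiv, Equiv.arrowCongr] using this
  rw [h1, h2]
  by_cases h : ∀ z, z ≠ e x → σ z = τ z
  · rw [if_pos h, if_pos (h3.mpr h)]
  · rw [if_neg h, if_neg (fun h' => h (h3.mp h'))]

lemma logZ_equiv (e : V ≃ W) (adj : V → V → Prop) [DecidableRel adj] (adj' : W → W → Prop)
    [DecidableRel adj'] (he : ∀ x y, adj x y ↔ adj' (e x) (e y)) (β h : ℝ) :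
    logZ n adj β h = logZ n adj' β h := by
  unfold logZ
  rw [← trace_exp_reindex (confEquiv n e)]
  congr 4
  set Φ := Matrix.reindexAlgEquiv ℂ ℂ (confEquiv n e) with hΦ
  have hΦa : ∀ X, Matrix.reindex (confEquiv n e) (confEquiv n e) X = Φ X := fun X => rfl
  have hs : ∀ (x : V) (A : Matrix (Fin (n + 1)) (Fin (n + 1)) ℂ), Φ (siteOp x A) = siteOp (e x) A :=
    fun x A => reindex_siteOp e x A
  rw [hΦa, map_smul, map_sub, map_smul]
  congr 2
  · unfold heisenberg
    rw [map_neg, map_smul, map_sum]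
    congr 2
    rw [← Equiv.sum_comp e]
    refine Finset.sum_congr rfl fun x _ => ?_
    rw [map_sum, ← Equiv.sum_comp e]
    refine Finset.sum_congr rfl fun y _ => ?_
    by_cases hxy : adj x y
    · rw [if_pos hxy, if_pos ((he x y).mp hxy), map_sum]
      refine Finset.sum_congr rfl fun a _ => ?_
      rw [map_mul, hs, hs]
    · rw [if_neg hxy, if_neg (fun h' => hxy ((he x y).mpr h')), map_zero]
  · congr 1
    unfold totalSpin
    rw [map_sum, ← Equiv.sum_comp e]
    refine Finset.sum_congr rfl fun x _ => ?_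
    rw [hs]

/-- adjacency on a disjoint union without cross edges -/
def sumAdj (adj : V → V → Prop) (adj' : W → W → Prop) : V ⊕ W → V ⊕ W → Prop
  | Sum.inl x, Sum.inl y => adj x y
  | Sum.inr x, Sum.inr y => adj' x y
  | _, _ => False

instance (adj : V → V → Prop) [DecidableRel adj] (adj' : W → W → Prop) [DecidableRel adj'] :
    DecidableRel (sumAdj adj adj') := fun x y => by
  cases x <;> cases y <;> unfold sumAdj <;> infer_instance

/-- configuration space of a disjoint union -/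
def confSum (n : ℕ) (V W : Type*) : (V ⊕ W → Fin (n + 1)) ≃ (V → Fin (n + 1)) × (W → Fin (n + 1)) :=
  Equiv.sumArrowEquivProdArrow V W (Fin (n + 1))

lemma reindex_inl (x : V) (A : Matrix (Fin (n + 1)) (Fin (n + 1)) ℂ) :
    Matrix.reindex (confSum n V W) (confSum n V W) (siteOp (Sum.inl x) A)
      = siteOp x A ⊗ₖ (1 : Matrix (W → Fin (n + 1)) (W → Fin (n + 1)) ℂ) := by
  ext ⟨σ, σ'⟩ ⟨τ, τ'⟩
  simp only [Matrix.reindex_apply, Matrix.submatrix_apply, siteOp, Matrix.kroneckerMap_apply]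
  have e1 : ∀ (s : V → Fin (n + 1)) (s' : W → Fin (n + 1)) (z : V),
      ((confSum n V W).symm (s, s')) (Sum.inl z) = s z := fun _ _ _ => rfl
  have e2 : ∀ (s : V → Fin (n + 1)) (s' : W → Fin (n + 1)) (z : W),
      ((confSum n V W).symm (s, s')) (Sum.inr z) = s' z := fun _ _ _ => rfl
  rw [e1, e1]
  have h3 : (∀ z, z ≠ Sum.inl x → (confSum n V W).symm (σ, σ') z = (confSum n V W).symm (τ, τ') z) ↔
      ((∀ z, z ≠ x → σ z = τ z) ∧ σ' = τ') := by
    constructor
    · intro h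
      refine ⟨fun z hz => ?_, ?_⟩
      · have := h (Sum.inl z) (by simpa using hz)
        rwa [e1, e1] at this
      · ext z
        have := h (Sum.inr z) (by simp)
        rw [e2, e2] at this
        rw [this]
    · rintro ⟨h, h'⟩ z hz
      cases z with
      | inl z =>
        rw [e1, e1]; exact h z (by simpa using hz)
      | inr z => rw [e2, e2, h']
  by_cases h : ∀ z, z ≠ x → σ z = τ z
  · by_cases h' : σ' = τ'
    · rw [if_pos (h3.mpr ⟨h, h'⟩), if_pos h, h', Matrix.one_apply_eq, mul_one]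
    · rw [if_neg (fun hc => h' (h3.mp hc).2), Matrix.one_apply_ne h', mul_zero]
  · rw [if_neg (fun hc => h (h3.mp hc).1), if_neg h, zero_mul]

lemma reindex_inr (x : W) (A : Matrix (Fin (n + 1)) (Fin (n + 1)) ℂ) :
    Matrix.reindex (confSum n V W) (confSum n V W) (siteOp (Sum.inr x) A)
      = (1 : Matrix (V → Fin (n + 1)) (V → Fin (n + 1)) ℂ) ⊗ₖ siteOp x A := by
  ext ⟨σ, σ'⟩ ⟨τ, τ'⟩
  simp only [Matrix.reindex_apply, Matrix.submatrix_apply, siteOp, Matrix.kroneckerMap_apply]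
  have e1 : ∀ (s : V → Fin (n + 1)) (s' : W → Fin (n + 1)) (z : V),
      ((confSum n V W).symm (s, s')) (Sum.inl z) = s z := fun _ _ _ => rfl
  have e2 : ∀ (s : V → Fin (n + 1)) (s' : W → Fin (n + 1)) (z : W),
      ((confSum n V W).symm (s, s')) (Sum.inr z) = s' z := fun _ _ _ => rfl
  rw [e2, e2]
  have h3 : (∀ z, z ≠ Sum.inr x → (confSum n V W).symm (σ, σ') z = (confSum n V W).symm (τ, τ') z) ↔
      (σ = τ ∧ (∀ z, z ≠ x → σ' z = τ' z)) := by
    constructor
    · intro h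
      refine ⟨?_, fun z hz => ?_⟩
      · ext z
        have := h (Sum.inl z) (by simp)
        rw [e1, e1] at this
        rw [this]
      · have := h (Sum.inr z) (by simpa using hz)
        rwa [e2, e2] at this
    · rintro ⟨h', h⟩ z hz
      cases z with
      | inr z =>
        rw [e2, e2]; exact h z (by simpa using hz)
      | inl z => rw [e1, e1, h']
  by_cases h : ∀ z, z ≠ x → σ' z = τ' z
  · by_cases h' : σ = τ
    · rw [if_pos (h3.mpr ⟨h', h⟩), if_pos h, h', Matrix.one_apply_eq, one_mul]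
    · rw [if_neg (fun hc => h' (h3.mp hc).1), Matrix.one_apply_ne h', zero_mul]
  · rw [if_neg (fun hc => h (h3.mp hc).2), if_neg h, mul_zero]

omit [DecidableEq V] in
lemma kl_sum {κ : Type*} (s : Finset κ)
    (X : κ → Matrix (V → Fin (n + 1)) (V → Fin (n + 1)) ℂ) :
    (∑ k ∈ s, X k) ⊗ₖ (1 : Matrix (W → Fin (n + 1)) (W → Fin (n + 1)) ℂ)
      = ∑ k ∈ s, (X k ⊗ₖ (1 : Matrix (W → Fin (n + 1)) (W → Fin (n + 1)) ℂ)) := by
  ext ⟨i, i'⟩ ⟨j, j'⟩
  simp [Matrix.kroneckerMap_apply, Matrix.sum_apply, Finset.sum_mul]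

omit [DecidableEq W] in
lemma kr_sum {κ : Type*} (s : Finset κ)
    (X : κ → Matrix (W → Fin (n + 1)) (W → Fin (n + 1)) ℂ) :
    (1 : Matrix (V → Fin (n + 1)) (V → Fin (n + 1)) ℂ) ⊗ₖ (∑ k ∈ s, X k)
      = ∑ k ∈ s, ((1 : Matrix (V → Fin (n + 1)) (V → Fin (n + 1)) ℂ) ⊗ₖ X k) := by
  ext ⟨i, i'⟩ ⟨j, j'⟩
  simp [Matrix.kroneckerMap_apply, Matrix.sum_apply, Finset.mul_sum]

lemma logZ_sum (adj : V → V → Prop) [DecidableRel adj] (adj' : W → W → Prop)
    [DecidableRel adj'] (hs : ∀ x y, adj x y → adj y x) (hi : ∀ x, ¬ adj x x)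
    (hs' : ∀ x y, adj' x y → adj' y x) (hi' : ∀ x, ¬ adj' x x) (β h : ℝ) :
    logZ n (sumAdj adj adj') β h = logZ n adj β h + logZ n adj' β h := by
  set KV := -(β : ℂ) • (heisenberg n adj - (h : ℂ) • totalSpin n V) with hKV
  set KW := -(β : ℂ) • (heisenberg n adj' - (h : ℂ) • totalSpin n W) with hKW
  have hV : KV.IsHermitian := by
    have := ham_isHermitian n adj hs hi h
    rw [hKV, Matrix.IsHermitian, Matrix.conjTranspose_smul, this.eq]
    simp
  have hW : KW.IsHermitian := by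
    have := ham_isHermitian n adj' hs' hi' h
    rw [hKW, Matrix.IsHermitian, Matrix.conjTranspose_smul, this.eq]
    simp
  set Φ := Matrix.reindexAlgEquiv ℂ ℂ (confSum n V W) with hΦ
  have hΦa : ∀ X, Matrix.reindex (confSum n V W) (confSum n V W) X = Φ X := fun X => rfl
  have hl : ∀ (x : V) (A : Matrix (Fin (n + 1)) (Fin (n + 1)) ℂ),
      Φ (siteOp (Sum.inl x) A) = siteOp x A ⊗ₖ (1 : Matrix (W → Fin (n + 1)) (W → Fin (n + 1)) ℂ) :=
    fun x A => reindex_inl x A
  have hr : ∀ (x : W) (A : Matrix (Fin (n + 1)) (Fin (n + 1)) ℂ),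
      Φ (siteOp (Sum.inr x) A) = (1 : Matrix (V → Fin (n + 1)) (V → Fin (n + 1)) ℂ) ⊗ₖ siteOp x A :=
    fun x A => reindex_inr x A
  have hH : Φ (heisenberg n (sumAdj adj adj')) =
      heisenberg n adj ⊗ₖ (1 : Matrix (W → Fin (n + 1)) (W → Fin (n + 1)) ℂ) +
      (1 : Matrix (V → Fin (n + 1)) (V → Fin (n + 1)) ℂ) ⊗ₖ heisenberg n adj' := by
    unfold heisenberg
    rw [map_neg, map_smul, map_sum, Fintype.sum_sum_type]
    have g1 : ∀ x : V, Φ (∑ y, if sumAdj adj adj' (Sum.inl x) y then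
        ∑ a : Fin 3, siteOp (Sum.inl x) (spin n a) * siteOp y (spin n a) else 0)
        = (∑ y, if adj x y then ∑ a : Fin 3, siteOp x (spin n a) * siteOp y (spin n a) else 0) ⊗ₖ
          (1 : Matrix (W → Fin (n + 1)) (W → Fin (n + 1)) ℂ) := by
      intro x
      rw [map_sum, Fintype.sum_sum_type, kl_sum]
      have z1 : ∑ y : W, Φ (if sumAdj adj adj' (Sum.inl x) (Sum.inr y) then
        ∑ a : Fin 3, siteOp (Sum.inl x) (spin n a) * siteOp (Sum.inr y) (spin n a) else 0) = 0 := by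
        refine Finset.sum_eq_zero fun y _ => ?_
        rw [if_neg (by simp [sumAdj]), map_zero]
      rw [z1, add_zero]
      refine Finset.sum_congr rfl fun y _ => ?_
      by_cases hxy : adj x y
      · rw [if_pos (by simpa [sumAdj] using hxy), if_pos hxy, map_sum, kl_sum]
        refine Finset.sum_congr rfl fun a _ => ?_
        rw [map_mul, hl, hl, ← Matrix.mul_kronecker_mul, Matrix.mul_one]
      · rw [if_neg (by simpa [sumAdj] using hxy), if_neg hxy, map_zero, Matrix.zero_kronecker]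
    have g2 : ∀ x : W, Φ (∑ y, if sumAdj adj adj' (Sum.inr x) y then
        ∑ a : Fin 3, siteOp (Sum.inr x) (spin n a) * siteOp y (spin n a) else 0)
        = (1 : Matrix (V → Fin (n + 1)) (V → Fin (n + 1)) ℂ) ⊗ₖ
        (∑ y, if adj' x y then ∑ a : Fin 3, siteOp x (spin n a) * siteOp y (spin n a) else 0) := by
      intro x
      rw [map_sum, Fintype.sum_sum_type, kr_sum]
      have z1 : ∑ y : V, Φ (if sumAdj adj adj' (Sum.inr x) (Sum.inl y) then
        ∑ a : Fin 3, siteOp (Sum.inr x) (spin n a) * siteOp (Sum.inl y) (spin n a) else 0) = 0 := by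
        refine Finset.sum_eq_zero fun y _ => ?_
        rw [if_neg (by simp [sumAdj]), map_zero]
      rw [z1, zero_add]
      refine Finset.sum_congr rfl fun y _ => ?_
      by_cases hxy : adj' x y
      · rw [if_pos (by simpa [sumAdj] using hxy), if_pos hxy, map_sum, kr_sum]
        refine Finset.sum_congr rfl fun a _ => ?_
        rw [map_mul, hr, hr, ← Matrix.mul_kronecker_mul, Matrix.mul_one]
      · rw [if_neg (by simpa [sumAdj] using hxy), if_neg hxy, map_zero, Matrix.kronecker_zero]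
    simp_rw [g1, g2]
    rw [← kl_sum, ← kr_sum]
    rw [smul_add, neg_add]
    congr 1
    · ext ⟨i, i'⟩ ⟨j, j'⟩
      simp [Matrix.kroneckerMap_apply, mul_assoc]
    · ext ⟨i, i'⟩ ⟨j, j'⟩
      simp [Matrix.kroneckerMap_apply, mul_left_comm]
  have hM : Φ (totalSpin n (V ⊕ W)) =
      totalSpin n V ⊗ₖ (1 : Matrix (W → Fin (n + 1)) (W → Fin (n + 1)) ℂ) +
      (1 : Matrix (V → Fin (n + 1)) (V → Fin (n + 1)) ℂ) ⊗ₖ totalSpin n W := by
    unfold totalSpin
    rw [map_sum, Fintype.sum_sum_type, kl_sum, kr_sum]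
    simp_rw [hl, hr]
  have hK : Φ (-(β : ℂ) • (heisenberg n (sumAdj adj adj') - (h : ℂ) • totalSpin n (V ⊕ W)))
      = KV ⊗ₖ (1 : Matrix (W → Fin (n + 1)) (W → Fin (n + 1)) ℂ) +
      (1 : Matrix (V → Fin (n + 1)) (V → Fin (n + 1)) ℂ) ⊗ₖ KW := by
    rw [map_smul, map_sub, map_smul, hH, hM, hKV, hKW]
    ext ⟨i, i'⟩ ⟨j, j'⟩
    simp only [Matrix.smul_apply, Matrix.sub_apply, Matrix.add_apply, Matrix.kroneckerMap_apply,
      smul_eq_mul]
    ring
  unfold logZ
  rw [← trace_exp_reindex (confSum n V W), hΦa, hK, trace_exp_kron KV KW hV hW]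
  have hre : ((NormedSpace.exp KV).trace * (NormedSpace.exp KW).trace).re
      = (NormedSpace.exp KV).trace.re * (NormedSpace.exp KW).trace.re := by
    have him : ∀ {ι : Type _} [Fintype ι] [DecidableEq ι] (X : Matrix ι ι ℂ), X.IsHermitian →
        (NormedSpace.exp X).trace.im = 0 := by
      intro ι _ _ X hX
      have h1 := hX.exp
      have h2 : star (NormedSpace.exp X).trace = (NormedSpace.exp X).trace := by
        rw [← Matrix.trace_conjTranspose, h1.eq]
      rw [Complex.star_def, Complex.conj_eq_iff_im] at h2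
      exact h2
    rw [Complex.mul_re, him KV hV, zero_mul, sub_zero]
  rw [hre, Real.log_mul (trace_exp_pos KV hV).ne' (trace_exp_pos KW hW).ne']

end LogZ

end Vale.Agent.Lib.P361H29
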