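import Vale.Agent.Lib.P361H29.Thermo1

set_option linter.unusedSimpArgs false

open Matrix

namespace Vale.Agent.Lib.P361H29

variable {V : Type*} [Fintype V] [DecidableEq V] {n : ℕ}

lemma Nop_le (K : Matrix (V → Fin (n + 1)) (V → Fin (n + 1)) ℂ) (hK : K.IsHermitian) (β : ℝ)
    (u : V) : ev (NormedSpace.exp (-(β : ℂ) • K)) (Nop n u) ≤
      n * ev (NormedSpace.exp (-(β : ℂ) • K)) 1 := by
  have h2 := ev_diagonal_nonneg K hK β (fun σ : V → Fin (n + 1) => (n : ℝ) - ((σ u : ℕ) : ℝ)) (by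
      intro σ
      have ha : ((σ u : ℕ) : ℝ) ≤ n := by exact_mod_cast Nat.lt_succ_iff.mp (σ u).2
      linarith)
  rw [← ev_smul]
  have h3 : (((n : ℝ)) : ℂ) • (1 : Matrix (V → Fin (n + 1)) (V → Fin (n + 1)) ℂ)
      = Nop n u + Matrix.diagonal
      (fun σ : V → Fin (n + 1) => (((n : ℝ) - ((σ u : ℕ) : ℝ) : ℝ) : ℂ)) := by
    rw [Nop, ← Matrix.diagonal_one, ← Matrix.diagonal_smul, Matrix.diagonal_add]
    congr 1
    ext σ
    simp only [Pi.smul_apply, smul_eq_mul]
    push_cast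
    ring
  rw [h3, ev_add]
  linarith

/-- two-sided bound for the exchange on one bond -/
lemma abs_ev_bond (K : Matrix (V → Fin (n + 1)) (V → Fin (n + 1)) ℂ) (hK : K.IsHermitian) (β : ℝ)
    (x y : V) (hxy : x ≠ y) :
    |ev (NormedSpace.exp (-(β : ℂ) • K)) (∑ a : Fin 3, siteOp x (spin n a) * siteOp y (spin n a))|
      ≤ 2 * (n : ℝ) ^ 2 * ev (NormedSpace.exp (-(β : ℂ) • K)) 1 := by
  set ρ := NormedSpace.exp (-(β : ℂ) • K) with hρ
  have hev1 : 0 ≤ ev ρ 1 := by
    have := ev_star_mul_nonneg _ hK β 1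
    rw [← hρ] at this
    simpa using this
  have e0 : ∑ a : Fin 3, siteOp x (spin n a) * siteOp y (spin n a)
      = Zop n x * Zop n y + ((1 / 2 : ℝ) : ℂ) • (Qop n x * Pop n y + Qop n y * Pop n x) := by
    rw [sum_spin_siteOp]
    have h1 : siteOp x (spinPlus n) * (siteOp y (spinPlus n))ᴴ = Qop n y * Pop n x := by
      have := hPQ n x y
      rw [if_neg hxy, sub_eq_zero] at this
      exact this
    rw [h1]
    have h2 : (siteOp x (spinPlus n))ᴴ * siteOp y (spinPlus n) = Qop n x * Pop n y := rfl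
    rw [h2, add_comm (Qop n y * Pop n x)]
    have h3 : ((1 / 2 : ℝ) : ℂ) = (1 / 2 : ℂ) := by push_cast; rfl
    rw [h3]
    rfl
  rw [e0, ev_add, ev_smul]
  have hplus := ev_star_mul_nonneg K hK β (Pop n x + Pop n y)
  have hminus := ev_star_mul_nonneg K hK β (Pop n x - Pop n y)
  have e1 : (Pop n x + Pop n y)ᴴ * (Pop n x + Pop n y) = (Qop n x * Pop n x + Qop n y * Pop n y)
        + (Qop n x * Pop n y + Qop n y * Pop n x) := by
      rw [Matrix.conjTranspose_add]
      simp only [Qop, Matrix.add_mul, Matrix.mul_add]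
      abel
  have e2 : (Pop n x - Pop n y)ᴴ * (Pop n x - Pop n y) = (Qop n x * Pop n x + Qop n y * Pop n y)
        - (Qop n x * Pop n y + Qop n y * Pop n x) := by
      rw [Matrix.conjTranspose_sub]
      simp only [Qop, Matrix.sub_mul, Matrix.mul_sub]
      abel
  rw [e1, ← hρ, ev_add] at hplus
  rw [e2, ← hρ, ev_sub] at hminus
  have hX : ev ρ (Qop n x * Pop n x + Qop n y * Pop n y) ≤ 2 * (n : ℝ) ^ 2 * ev ρ 1 := by
    rw [ev_add]
    have h1 := ev_site n K hK β x
    have h2 := ev_site n K hK β y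
    have h3 := Nop_le K hK β x
    have h4 := Nop_le K hK β y
    rw [← hρ] at h1 h2 h3 h4
    have hn0 : (0 : ℝ) ≤ n := by positivity
    nlinarith [mul_le_mul_of_nonneg_left h3 hn0, mul_le_mul_of_nonneg_left h4 hn0]
  -- diagonal part
  have hzz : Zop n x * Zop n y = Matrix.diagonal fun σ : V → Fin (n + 1) =>
      ((((n : ℝ) / 2 - ((σ x : ℕ) : ℝ)) * ((n : ℝ) / 2 - ((σ y : ℕ) : ℝ)) : ℝ) : ℂ) := by
    rw [Zop_eq_diag, Zop_eq_diag, Matrix.diagonal_mul_diagonal]
    congr 1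
    ext σ
    push_cast
    ring
  have hbd : ∀ σ : V → Fin (n + 1), |((n : ℝ) / 2 - ((σ x : ℕ) : ℝ)) *
      ((n : ℝ) / 2 - ((σ y : ℕ) : ℝ))| ≤ (n : ℝ) ^ 2 := by
    intro σ
    have ha : ((σ x : ℕ) : ℝ) ≤ n := by exact_mod_cast Nat.lt_succ_iff.mp (σ x).2
    have hb : ((σ y : ℕ) : ℝ) ≤ n := by exact_mod_cast Nat.lt_succ_iff.mp (σ y).2
    have ha0 : (0 : ℝ) ≤ ((σ x : ℕ) : ℝ) := by positivity
    have hb0 : (0 : ℝ) ≤ ((σ y : ℕ) : ℝ) := by positivity
    rw [abs_mul, sq]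
    apply mul_le_mul _ _ (abs_nonneg _) (by positivity)
    · rw [abs_le]; constructor <;> linarith
    · rw [abs_le]; constructor <;> linarith
  have hz1 := ev_diagonal_nonneg K hK β (fun σ : V → Fin (n + 1) => (n : ℝ) ^ 2 -
    ((n : ℝ) / 2 - ((σ x : ℕ) : ℝ)) * ((n : ℝ) / 2 - ((σ y : ℕ) : ℝ))) (fun σ => by
      linarith [(abs_le.mp (hbd σ)).2])
  have hz2 := ev_diagonal_nonneg K hK β (fun σ : V → Fin (n + 1) => (n : ℝ) ^ 2 +
    ((n : ℝ) / 2 - ((σ x : ℕ) : ℝ)) * ((n : ℝ) / 2 - ((σ y : ℕ) : ℝ))) (fun σ => by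
      linarith [(abs_le.mp (hbd σ)).1])
  have e3 : (Matrix.diagonal fun σ : V → Fin (n + 1) => (((n : ℝ) ^ 2 -
    ((n : ℝ) / 2 - ((σ x : ℕ) : ℝ)) * ((n : ℝ) / 2 - ((σ y : ℕ) : ℝ)) : ℝ) : ℂ))
      = ((((n : ℝ) ^ 2 : ℝ)) : ℂ) • (1 : Matrix (V → Fin (n + 1)) (V → Fin (n + 1)) ℂ) -
        Zop n x * Zop n y := by
    rw [hzz, ← Matrix.diagonal_one, ← Matrix.diagonal_smul, Matrix.diagonal_sub]
    congr 1
    ext σ
    simp only [Pi.smul_apply, smul_eq_mul]
    push_cast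
    ring
  have e4 : (Matrix.diagonal fun σ : V → Fin (n + 1) => (((n : ℝ) ^ 2 +
    ((n : ℝ) / 2 - ((σ x : ℕ) : ℝ)) * ((n : ℝ) / 2 - ((σ y : ℕ) : ℝ)) : ℝ) : ℂ))
      = ((((n : ℝ) ^ 2 : ℝ)) : ℂ) • (1 : Matrix (V → Fin (n + 1)) (V → Fin (n + 1)) ℂ) +
        Zop n x * Zop n y := by
    rw [hzz, ← Matrix.diagonal_one, ← Matrix.diagonal_smul, Matrix.diagonal_add]
    congr 1
    ext σ
    simp only [Pi.smul_apply, smul_eq_mul]
    push_cast
    ring
  rw [e3, ← hρ, ev_sub, ev_smul] at hz1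
  rw [e4, ← hρ, ev_add, ev_smul] at hz2
  rw [abs_le]
  constructor <;> linarith

/-- changing the edge set changes `log Z` by at most `β n²` times the number of changed
ordered pairs -/
lemma logZ_edges (adj adj' : V → V → Prop) [DecidableRel adj] [DecidableRel adj']
    (hs : ∀ x y, adj x y → adj y x) (hi : ∀ x, ¬ adj x x)
    (hs' : ∀ x y, adj' x y → adj' y x) (hi' : ∀ x, ¬ adj' x x)
    (hsub : ∀ x y, adj x y → adj' x y) (β h : ℝ) (hβ : 0 < β) (E : ℝ)
    (hE : ((Finset.univ.filter (fun p : V × V => adj' p.1 p.2 ∧ ¬ adj p.1 p.2)).card : ℝ) ≤ E) :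
    |logZ n adj' β h - logZ n adj β h| ≤ β * (n : ℝ) ^ 2 * E := by
  set K := heisenberg n adj - (h : ℂ) • totalSpin n V with hK
  set K' := heisenberg n adj' - (h : ℂ) • totalSpin n V with hK'
  have hKH : K.IsHermitian := ham_isHermitian n adj hs hi h
  have hKH' : K'.IsHermitian := ham_isHermitian n adj' hs' hi' h
  set A := -(β : ℂ) • K with hA
  set A' := -(β : ℂ) • K' with hA'
  have hAH : A.IsHermitian := by
    rw [Matrix.IsHermitian, hA, Matrix.conjTranspose_smul, hKH.eq]; simp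
  have hAH' : A'.IsHermitian := by
    rw [Matrix.IsHermitian, hA', Matrix.conjTranspose_smul, hKH'.eq]; simp
  set D : Matrix (V → Fin (n + 1)) (V → Fin (n + 1)) ℂ :=
    ∑ p ∈ (Finset.univ.filter (fun p : V × V => adj' p.1 p.2 ∧ ¬ adj p.1 p.2)),
      ∑ a : Fin 3, siteOp p.1 (spin n a) * siteOp p.2 (spin n a) with hD
  have hdiff : A' - A = (((β / 2 : ℝ)) : ℂ) • D := by
    have h1 : heisenberg n adj' - heisenberg n adj = -((1 / 2 : ℂ) • D) := by
      unfold heisenberg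
      rw [← sub_eq_zero]
      have h2 : (∑ x, ∑ y, if adj' x y then
          ∑ a : Fin 3, siteOp x (spin n a) * siteOp y (spin n a) else 0) -
          (∑ x, ∑ y, if adj x y then
          ∑ a : Fin 3, siteOp x (spin n a) * siteOp y (spin n a) else 0) = D := by
        rw [hD, Finset.sum_filter, Fintype.sum_prod_type, ← Finset.sum_sub_distrib]
        refine Finset.sum_congr rfl fun x _ => ?_
        rw [← Finset.sum_sub_distrib]
        refine Finset.sum_congr rfl fun y _ => ?_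
        by_cases h1 : adj x y
        · rw [if_pos h1, if_pos (hsub x y h1), if_neg (by simp [h1]), sub_self]
        · by_cases h2 : adj' x y
          · rw [if_pos h2, if_neg h1, if_pos ⟨h2, h1⟩, sub_zero]
          · rw [if_neg h2, if_neg h1, if_neg (by simp [h2]), sub_zero]
      rw [← h2]
      module
    rw [hA, hA', hK, hK', ← smul_sub]
    rw [show heisenberg n adj' - (h : ℂ) • totalSpin n V - (heisenberg n adj -
      (h : ℂ) • totalSpin n V) = heisenberg n adj' - heisenberg n adj by abel, h1]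
    push_cast
    module
  have hBH : (A' - A).IsHermitian := hAH'.sub hAH
  have hBH' : (A - A').IsHermitian := hAH.sub hAH'
  have p1 := peierls_bogoliubov A (A' - A) hAH hBH
  have p2 := peierls_bogoliubov A' (A - A') hAH' hBH'
  rw [add_sub_cancel] at p1 p2
  have hZ : 0 < (NormedSpace.exp A).trace.re := trace_exp_pos A hAH
  have hZ' : 0 < (NormedSpace.exp A').trace.re := trace_exp_pos A' hAH'
  have l1 := Real.log_le_log (by positivity) p1
  have l2 := Real.log_le_log (by positivity) p2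
  rw [Real.log_mul hZ.ne' (Real.exp_pos _).ne', Real.log_exp] at l1
  rw [Real.log_mul hZ'.ne' (Real.exp_pos _).ne', Real.log_exp] at l2
  have hbound : ∀ (K0 : Matrix (V → Fin (n + 1)) (V → Fin (n + 1)) ℂ), K0.IsHermitian →
      |ev (NormedSpace.exp (-(β : ℂ) • K0)) ((((β / 2 : ℝ)) : ℂ) • D)|
        ≤ β * (n : ℝ) ^ 2 * E * ev (NormedSpace.exp (-(β : ℂ) • K0)) 1 := by
    intro K0 hK0
    have hev1 : 0 ≤ ev (NormedSpace.exp (-(β : ℂ) • K0)) 1 := by
      have := ev_star_mul_nonneg _ hK0 β 1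
      simpa using this
    rw [ev_smul, hD, ev_sum, abs_mul, abs_of_pos (by positivity : 0 < β / 2)]
    have h1 : |∑ p ∈ Finset.univ.filter (fun p : V × V => adj' p.1 p.2 ∧ ¬ adj p.1 p.2),
        ev (NormedSpace.exp (-(β : ℂ) • K0)) (∑ a : Fin 3, siteOp p.1 (spin n a) *
          siteOp p.2 (spin n a))| ≤
        ∑ p ∈ Finset.univ.filter (fun p : V × V => adj' p.1 p.2 ∧ ¬ adj p.1 p.2),
          2 * (n : ℝ) ^ 2 * ev (NormedSpace.exp (-(β : ℂ) • K0)) 1 := by
      refine le_trans (Finset.abs_sum_le_sum_abs _ _) (Finset.sum_le_sum fun p hp => ?_)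
      rw [Finset.mem_filter] at hp
      apply abs_ev_bond K0 hK0 β p.1 p.2
      intro hc
      apply hi' p.1
      have := hp.2.1
      rw [← hc] at this
      exact this
    rw [Finset.sum_const, nsmul_eq_mul] at h1
    have h2 : ((Finset.univ.filter (fun p : V × V => adj' p.1 p.2 ∧ ¬ adj p.1 p.2)).card : ℝ) *
        (2 * (n : ℝ) ^ 2 * ev (NormedSpace.exp (-(β : ℂ) • K0)) 1)
        ≤ E * (2 * (n : ℝ) ^ 2 * ev (NormedSpace.exp (-(β : ℂ) • K0)) 1) :=
      mul_le_mul_of_nonneg_right hE (by positivity)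
    calc β / 2 * _ ≤ β / 2 * (E * (2 * (n : ℝ) ^ 2 * ev (NormedSpace.exp (-(β : ℂ) • K0)) 1)) :=
          mul_le_mul_of_nonneg_left (h1.trans h2) (by positivity)
      _ = _ := by ring
  have b1 := hbound K hKH
  have b2 := hbound K' hKH'
  rw [← hA, ← hdiff] at b1
  rw [← hA', ← hdiff] at b2
  have ev1 : ev (NormedSpace.exp A) 1 = (NormedSpace.exp A).trace.re := by
    rw [ev, Matrix.mul_one]
  have ev1' : ev (NormedSpace.exp A') 1 = (NormedSpace.exp A').trace.re := by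
    rw [ev, Matrix.mul_one]
  rw [ev1] at b1
  rw [ev1'] at b2
  have q1 : -(β * (n : ℝ) ^ 2 * E) ≤ (NormedSpace.exp A * (A' - A)).trace.re /
      (NormedSpace.exp A).trace.re := by
    rw [le_div_iff₀ hZ]
    have := (abs_le.mp b1).1
    unfold ev at this
    linarith
  have q2 : -(β * (n : ℝ) ^ 2 * E) ≤ (NormedSpace.exp A' * (A - A')).trace.re /
      (NormedSpace.exp A').trace.re := by
    rw [le_div_iff₀ hZ']
    have h3 : (NormedSpace.exp A' * (A - A')).trace.re = -ev (NormedSpace.exp A') (A' - A) := by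
      unfold ev
      rw [← neg_sub A' A, Matrix.mul_neg, Matrix.trace_neg, Complex.neg_re]
    rw [h3]
    have := (abs_le.mp b2).2
    linarith
  unfold logZ
  rw [← hK, ← hK', ← hA, ← hA', abs_le]
  constructor <;> linarith

end Vale.Agent.Lib.P361H29
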