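import Vale.Agent.Lib.P361H29.Thermo2

set_option linter.unusedSimpArgs false

open Matrix

namespace Vale.Agent.Lib.P361H29

/-- path × graph -/
def slab (a : ℕ) {W : Type*} (adj : W → W → Prop) : Fin a × W → Fin a × W → Prop :=
  fun p q => (((p.1 : ℕ) + 1 = (q.1 : ℕ) ∨ (q.1 : ℕ) + 1 = (p.1 : ℕ)) ∧ p.2 = q.2) ∨
    (p.1 = q.1 ∧ adj p.2 q.2)

instance (a : ℕ) {W : Type*} [DecidableEq W] (adj : W → W → Prop) [DecidableRel adj] :
    DecidableRel (slab a adj) := fun p q => by unfold slab; infer_instance

lemma slab_symm (a : ℕ) {W : Type*} (adj : W → W → Prop) (hs : ∀ x y, adj x y → adj y x) :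
    ∀ x y, slab a adj x y → slab a adj y x := by
  rintro x y (⟨h, h'⟩ | ⟨h, h'⟩)
  · left; exact ⟨h.symm, h'.symm⟩
  · right; exact ⟨h.symm, hs _ _ h'⟩

lemma slab_irrefl (a : ℕ) {W : Type*} (adj : W → W → Prop) (hi : ∀ x, ¬ adj x x) :
    ∀ x, ¬ slab a adj x x := by
  rintro x (⟨h, _⟩ | ⟨_, h'⟩)
  · rcases h with h | h <;> omega
  · exact hi _ h'

lemma sumAdj_symm {V W : Type*} (adj : V → V → Prop) (adj' : W → W → Prop)
    (hs : ∀ x y, adj x y → adj y x) (hs' : ∀ x y, adj' x y → adj' y x) :
    ∀ x y, sumAdj adj adj' x y → sumAdj adj adj' y x := by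
  rintro (x | x) (y | y) h
  · exact hs _ _ h
  · exact h.elim
  · exact h.elim
  · exact hs' _ _ h

lemma sumAdj_irrefl {V W : Type*} (adj : V → V → Prop) (adj' : W → W → Prop)
    (hi : ∀ x, ¬ adj x x) (hi' : ∀ x, ¬ adj' x x) :
    ∀ x, ¬ sumAdj adj adj' x x := by
  rintro (x | x) h
  · exact hi _ h
  · exact hi' _ h

section Split
variable {W : Type*} [Fintype W] [DecidableEq W] {n : ℕ}

/-- splitting equivalence -/
def splitEquiv (a b : ℕ) (W : Type*) : (Fin a × W) ⊕ (Fin b × W) ≃ Fin (a + b) × W :=
  (Equiv.sumProdDistrib (Fin a) (Fin b) W).symm.trans (finSumFinEquiv.prodCongr (Equiv.refl W))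

lemma splitEquiv_inl (a b : ℕ) (W : Type*) (p : Fin a × W) :
    splitEquiv a b W (Sum.inl p) = (Fin.castAdd b p.1, p.2) := rfl

lemma splitEquiv_inr (a b : ℕ) (W : Type*) (p : Fin b × W) :
    splitEquiv a b W (Sum.inr p) = (Fin.natAdd a p.1, p.2) := rfl

lemma slab_split (adj : W → W → Prop) [DecidableRel adj] (hs : ∀ x y, adj x y → adj y x)
    (hi : ∀ x, ¬ adj x x) (a b : ℕ) (β h : ℝ) (hβ : 0 < β) :
    |logZ n (slab (a + b) adj) β h - (logZ n (slab a adj) β h + logZ n (slab b adj) β h)|
      ≤ β * (n : ℝ) ^ 2 * (2 * Fintype.card W) := by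
  let adj' : (Fin a × W) ⊕ (Fin b × W) → (Fin a × W) ⊕ (Fin b × W) → Prop :=
    fun p q => slab (a + b) adj (splitEquiv a b W p) (splitEquiv a b W q)
  have : DecidableRel adj' := fun p q => by
    show Decidable (slab (a + b) adj _ _); infer_instance
  have h1 : logZ n adj' β h = logZ n (slab (a + b) adj) β h :=
    logZ_equiv (splitEquiv a b W) adj' (slab (a + b) adj) (fun x y => Iff.rfl) β h
  have h2 := logZ_sum (n := n) (slab a adj) (slab b adj) (slab_symm a adj hs) (slab_irrefl a adj hi)
    (slab_symm b adj hs) (slab_irrefl b adj hi) β h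
  rw [← h1, ← h2]
  apply logZ_edges (sumAdj (slab a adj) (slab b adj)) adj'
    (sumAdj_symm _ _ (slab_symm a adj hs) (slab_symm b adj hs))
    (sumAdj_irrefl _ _ (slab_irrefl a adj hi) (slab_irrefl b adj hi))
    (fun x y h => slab_symm (a + b) adj hs _ _ h)
    (fun x => slab_irrefl (a + b) adj hi _) _ β h hβ
  · -- counting
    have hcard : (Finset.univ.filter (fun p : ((Fin a × W) ⊕ (Fin b × W)) ×
        ((Fin a × W) ⊕ (Fin b × W)) => adj' p.1 p.2 ∧
        ¬ sumAdj (slab a adj) (slab b adj) p.1 p.2)).card ≤ (Finset.univ : Finset (Bool × W)).card := by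
      apply Finset.card_le_card_of_injOn (fun p => match p.1 with
        | Sum.inl q => (true, q.2)
        | Sum.inr q => (false, q.2))
      · intro p _
        exact Finset.mem_univ _
      · rintro ⟨p, q⟩ hp ⟨p', q'⟩ hp' heq
        simp only [Finset.coe_filter, Finset.mem_univ, true_and, Set.mem_ofPred_eq] at hp hp'
        have key : ∀ (p q : (Fin a × W) ⊕ (Fin b × W)), adj' p q →
            ¬ sumAdj (slab a adj) (slab b adj) p q →
            (∃ i w j, p = Sum.inl (i, w) ∧ q = Sum.inr (j, w) ∧ (i : ℕ) + 1 = a ∧ (j : ℕ) = 0) ∨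
            (∃ i w j, p = Sum.inr (j, w) ∧ q = Sum.inl (i, w) ∧ (i : ℕ) + 1 = a ∧ (j : ℕ) = 0) := by
          intro p q h1 h2
          rcases p with ⟨i, w⟩ | ⟨j, w⟩
          · rcases q with ⟨i', w'⟩ | ⟨j', w'⟩
            · exfalso
              apply h2
              rcases h1 with ⟨h1, h1'⟩ | ⟨h1, h1'⟩
              · left
                refine ⟨?_, h1'⟩
                simpa [splitEquiv_inl] using h1
              · right
                refine ⟨?_, h1'⟩
                simpa [splitEquiv_inl] using h1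
            · left
              rcases h1 with ⟨h1, h1'⟩ | ⟨h1, h1'⟩
              · simp only [splitEquiv_inl, splitEquiv_inr, Fin.val_castAdd, Fin.val_natAdd] at h1 h1'
                refine ⟨i, w, j', rfl, by rw [h1'], ?_, ?_⟩ <;> have := i.2 <;> omega
              · simp only [splitEquiv_inl, splitEquiv_inr, Fin.ext_iff, Fin.val_castAdd,
                  Fin.val_natAdd] at h1
                have := i.2
                omega
          · rcases q with ⟨i', w'⟩ | ⟨j', w'⟩
            · right
              rcases h1 with ⟨h1, h1'⟩ | ⟨h1, h1'⟩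
              · simp only [splitEquiv_inl, splitEquiv_inr, Fin.val_castAdd, Fin.val_natAdd] at h1 h1'
                refine ⟨i', w, j, rfl, by rw [h1'], ?_, ?_⟩ <;> have := i'.2 <;> omega
              · simp only [splitEquiv_inl, splitEquiv_inr, Fin.ext_iff, Fin.val_castAdd,
                  Fin.val_natAdd] at h1
                have := i'.2
                omega
            · exfalso
              apply h2
              rcases h1 with ⟨h1, h1'⟩ | ⟨h1, h1'⟩
              · left
                refine ⟨?_, h1'⟩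
                simp only [splitEquiv_inr, Fin.val_natAdd] at h1
                simp only
                omega
              · right
                refine ⟨?_, h1'⟩
                simp only [splitEquiv_inr, Fin.ext_iff, Fin.val_natAdd] at h1
                simp only [Fin.ext_iff]
                omega
        rcases key p q hp.1 hp.2 with ⟨i, w, j, rfl, rfl, hi1, hj1⟩ | ⟨i, w, j, rfl, rfl, hi1, hj1⟩
        · rcases key p' q' hp'.1 hp'.2 with ⟨i', w', j', rfl, rfl, hi2, hj2⟩ |
            ⟨i', w', j', rfl, rfl, hi2, hj2⟩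
          · simp only [Prod.mk.injEq, true_and] at heq
            subst heq
            have e1 : i = i' := by ext; omega
            have e2 : j = j' := by ext; omega
            rw [e1, e2]
          · simp at heq
        · rcases key p' q' hp'.1 hp'.2 with ⟨i', w', j', rfl, rfl, hi2, hj2⟩ |
            ⟨i', w', j', rfl, rfl, hi2, hj2⟩
          · simp at heq
          · simp only [Prod.mk.injEq, true_and] at heq
            subst heq
            have e1 : i = i' := by ext; omega
            have e2 : j = j' := by ext; omega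
            rw [e1, e2]
    rw [Finset.card_univ, Fintype.card_prod, Fintype.card_bool] at hcard
    exact_mod_cast hcard
  · -- inclusion
    rintro (⟨i, w⟩ | ⟨j, w⟩) (⟨i', w'⟩ | ⟨j', w'⟩) h
    · rcases h with ⟨h1, h1'⟩ | ⟨h1, h1'⟩
      · left
        refine ⟨?_, h1'⟩
        simpa [splitEquiv_inl] using h1
      · right
        refine ⟨?_, h1'⟩
        simpa [splitEquiv_inl] using h1
    · exact h.elim
    · exact h.elim
    · rcases h with ⟨h1, h1'⟩ | ⟨h1, h1'⟩
      · left
        refine ⟨?_, h1'⟩
        simp only [splitEquiv_inr, Fin.val_natAdd]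
        simp only at h1
        omega
      · right
        refine ⟨?_, h1'⟩
        simp only [splitEquiv_inr, Fin.ext_iff, Fin.val_natAdd]
        simp only [Fin.ext_iff] at h1
        omega

lemma logZ_slab_cast (adj : W → W → Prop) [DecidableRel adj] (a a' : ℕ) (haa : a = a') (β h : ℝ) :
    logZ n (slab a adj) β h = logZ n (slab a' adj) β h := by subst haa; rfl

lemma slab_mul (adj : W → W → Prop) [DecidableRel adj] (hs : ∀ x y, adj x y → adj y x)
    (hi : ∀ x, ¬ adj x x) (a k : ℕ) (β h : ℝ) (hβ : 0 < β) :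
    |logZ n (slab ((k + 1) * a) adj) β h - ((k + 1 : ℕ) : ℝ) * logZ n (slab a adj) β h|
      ≤ (k : ℝ) * (β * (n : ℝ) ^ 2 * (2 * Fintype.card W)) := by
  induction k with
  | zero =>
    rw [logZ_slab_cast adj ((0 + 1) * a) a (by ring)]
    simp
  | succ k ih =>
    have h1 := slab_split (n := n) adj hs hi ((k + 1) * a) a β h hβ
    rw [logZ_slab_cast adj ((k + 1 + 1) * a) ((k + 1) * a + a) (by ring)]
    have h2 : logZ n (slab ((k + 1) * a + a) adj) β h -
        ((k + 1 + 1 : ℕ) : ℝ) * logZ n (slab a adj) β h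
        = (logZ n (slab ((k + 1) * a + a) adj) β h - (logZ n (slab ((k + 1) * a) adj) β h +
          logZ n (slab a adj) β h)) +
          (logZ n (slab ((k + 1) * a) adj) β h - ((k + 1 : ℕ) : ℝ) * logZ n (slab a adj) β h) := by
      push_cast; ring
    rw [h2]
    refine (abs_add_le _ _).trans ?_
    push_cast at ih ⊢
    linarith

/-- swapping two path factors -/
def swapEquiv (a b : ℕ) (W : Type*) : Fin a × (Fin b × W) ≃ Fin b × (Fin a × W) where
  toFun p := (p.2.1, (p.1, p.2.2))
  invFun p := (p.2.1, (p.1, p.2.2))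
  left_inv p := rfl
  right_inv p := rfl

lemma slab_swap (adj : W → W → Prop) [DecidableRel adj] (a b : ℕ) (β h : ℝ) :
    logZ n (slab a (slab b adj)) β h = logZ n (slab b (slab a adj)) β h := by
  apply logZ_equiv (swapEquiv a b W)
  rintro ⟨i, j, w⟩ ⟨i', j', w'⟩
  simp only [slab, swapEquiv, Equiv.coe_fn_mk, Prod.mk.injEq]
  tauto

/-- congruence of slabs -/
lemma slab_congr {W' : Type*} [Fintype W'] [DecidableEq W'] (adj : W → W → Prop) [DecidableRel adj]
    (adj' : W' → W' → Prop) [DecidableRel adj'] (e : W ≃ W')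
    (he : ∀ x y, adj x y ↔ adj' (e x) (e y)) (a : ℕ) (β h : ℝ) :
    logZ n (slab a adj) β h = logZ n (slab a adj') β h := by
  apply logZ_equiv ((Equiv.refl (Fin a)).prodCongr e)
  rintro ⟨i, w⟩ ⟨i', w'⟩
  simp only [slab, Equiv.prodCongr_apply, Prod.map_apply, Equiv.refl_apply, he,
    EmbeddingLike.apply_eq_iff_eq]

end Split

end Vale.Agent.Lib.P361H29
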